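import Vale.Agent.P237.Uniform.Wallis

/-!
# The loss factors of the uniform Petty bound

`rate m = exp (-5 / (8 m (m + 1)))` lies below the ratio of Wallis integrals produced by the
profile inequality in dimension `m + 2`, and the product of all of them is at least `73/100`.
-/

open Real Finset

namespace Vale.Agent.P237.Uniform

/-- The loss factor in dimension `m + 2`. -/
noncomputable def rate (m : ℕ) : ℝ := Real.exp (-5 / (8 * (m : ℝ) * ((m : ℝ) + 1)))

lemma rate_pos (m : ℕ) : 0 < rate m := Real.exp_pos _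

lemma log_pred_div_succ {m : ℝ} (hm : 1 ≤ m) :
    -(2 / (2 * m + 1)) - 1 / (6 * m * (m + 1) * (2 * m + 1)) ≤ log (m / (m + 1)) := by
  set q := 1 / (2 * m + 1) with hq
  have hq0 : 0 ≤ q := by positivity
  have hq3 : q ≤ 1 / 3 := one_div_le_one_div_of_le (by norm_num) (by linarith)
  have hq1 : 0 < 1 - q ^ 2 := by nlinarith
  have h := log_div_le_sum_range_add hq0 (by linarith) 3
  simp only [Finset.sum_range_succ, Finset.sum_range_zero] at h
  norm_num at h
  have hid : (1 + q) / (1 - q) = (m + 1) / m := by rw [hq]; field_simp; ring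
  have hid2 : q ^ 3 / (1 - q ^ 2) = 1 / (4 * m * (m + 1) * (2 * m + 1)) := by
    have e : 1 - q ^ 2 = 4 * m * (m + 1) / (2 * m + 1) ^ 2 := by rw [hq]; field_simp; ring
    rw [e, hq]; field_simp
  have h7 : q ^ 3 / 3 + q ^ 5 / 5 + q ^ 7 / (1 - q ^ 2) ≤ q ^ 3 / (3 * (1 - q ^ 2)) := by
    have hq6 : q ^ 2 ≤ 1 / 6 := by nlinarith
    have h5 : q ^ 7 ≤ q ^ 5 * (1 / 6) := by
      rw [show q ^ 7 = q ^ 5 * q ^ 2 by ring]
      exact mul_le_mul_of_nonneg_left hq6 (by positivity)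
    rw [div_add_div _ _ (by norm_num) (by norm_num), div_add_div _ _ (by norm_num) hq1.ne',
      div_le_div_iff₀ (by positivity) (by positivity)]
    have hnum : ((q ^ 3 * 5 + 3 * q ^ 5) * (1 - q ^ 2) + 3 * 5 * q ^ 7) ≤ 5 * q ^ 3 := by
      have e : (q ^ 3 * 5 + 3 * q ^ 5) * (1 - q ^ 2) + 3 * 5 * q ^ 7 =
          5 * q ^ 3 - 2 * q ^ 5 + 12 * q ^ 7 := by ring
      rw [e]; linarith
    nlinarith [mul_le_mul_of_nonneg_right hnum (by positivity : 0 ≤ 3 * (1 - q ^ 2))]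
  have hlog : log (m / (m + 1)) = -log ((m + 1) / m) := by
    rw [← log_inv, inv_div]
  rw [hid] at h
  have hid3 : q ^ 3 / (3 * (1 - q ^ 2)) = 1 / (12 * m * (m + 1) * (2 * m + 1)) := by
    rw [mul_comm (3 : ℝ), ← div_div, hid2, div_div]
    ring
  rw [hlog]
  have : 2 / (2 * m + 1) = 2 * q := by rw [hq]; ring
  have : 1 / (6 * m * (m + 1) * (2 * m + 1)) = 2 * (1 / (12 * m * (m + 1) * (2 * m + 1))) := by
    field_simp; norm_num
  linarith

lemma log_hh_div {m : ℝ} (hm : 1 ≤ m) :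
    1 / (m + 1) + 1 / (12 * (m + 1) ^ 3) + 2 / (16 * m ^ 2 + 56 * m + 49) ≤
      log (hh 4 (m + 1) / (2 * m + 1)) := by
  set x := 1 / (2 * m + 2) with hx
  set y := 1 / ((4 * m + 8) * (2 * m + 3)) with hy
  have hx0 : 0 ≤ x := by positivity
  have hx1 : x < 1 := by
    rw [hx, div_lt_one (by positivity)]; linarith
  have hy0 : 0 ≤ y := by positivity
  have h1 := sum_range_le_log_div hx0 hx1 2
  simp only [Finset.sum_range_succ, Finset.sum_range_zero] at h1
  norm_num at h1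
  have h2 := le_log_one_add_of_nonneg hy0
  have hid : (1 + x) / (1 - x) * (1 + y) = hh 4 (m + 1) / (2 * m + 1) := by
    have e : (1 + x) / (1 - x) = (2 * m + 3) / (2 * m + 1) := by
      rw [div_eq_div_iff (by linarith) (by positivity), hx]; field_simp; ring
    rw [e, hy, hh]; field_simp; ring
  have hpos : 0 < (1 + x) / (1 - x) := div_pos (by linarith) (by linarith)
  rw [← hid, log_mul hpos.ne' (by positivity)]
  have e1 : 1 / (m + 1) + 1 / (12 * (m + 1) ^ 3) = 2 * (x + x ^ 3 / 3) := by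
    rw [hx]; field_simp; ring
  have e2 : 2 * y / (y + 2) = 2 / (16 * m ^ 2 + 56 * m + 49) := by
    rw [hy]; field_simp; ring
  linarith

lemma log_ratio_hh {m : ℝ} (hm : 1 ≤ m) :
    2 * (56 * m - 1) / (64 * m ^ 2 + 72 * m + 1) ≤ log (4 * (m + 2) / hh 0 (2 * m)) := by
  have hh2 : hh 0 (2 * m) = (32 * m ^ 2 + 8 * m + 1) / (8 * m) := by
    rw [hh]; field_simp; ring
  have hr : 0 ≤ 4 * (m + 2) / hh 0 (2 * m) - 1 := by
    rw [sub_nonneg, hh2, le_div_iff₀ (by positivity), one_mul, div_le_iff₀ (by positivity)]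
    nlinarith
  have h := le_log_one_add_of_nonneg hr
  rw [add_sub_cancel] at h
  refine le_trans (le_of_eq ?_) h
  have hD : 32 * m ^ 2 + 8 * m + 1 ≠ 0 := by positivity
  have e1 : 4 * (m + 2) / hh 0 (2 * m) - 1 = (56 * m - 1) / (32 * m ^ 2 + 8 * m + 1) := by
    rw [hh2]; field_simp; ring
  have e2 : (56 * m - 1) / (32 * m ^ 2 + 8 * m + 1) + 2 =
      (64 * m ^ 2 + 72 * m + 1) / (32 * m ^ 2 + 8 * m + 1) := by
    rw [div_add' _ _ _ hD]; ring
  rw [e1, e2, ← mul_div_assoc, div_div_div_cancel_right₀ hD]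

/-- The rational inequality left after taking logarithms. -/
lemma rate_rat {m : ℝ} (hm : 1 ≤ m) :
    0 ≤ (2 * m + 2) * (-(2 / (2 * m + 1)) - 1 / (6 * m * (m + 1) * (2 * m + 1))) +
      (2 * m + 1) * (1 / (m + 1) + 1 / (12 * (m + 1) ^ 3) + 2 / (16 * m ^ 2 + 56 * m + 49)) +
      2 * (56 * m - 1) / (64 * m ^ 2 + 72 * m + 1) + 5 / (4 * m * (m + 1)) := by
  obtain ⟨j, hj, rfl⟩ : ∃ j : ℝ, 0 ≤ j ∧ m = j + 1 := ⟨m - 1, by linarith, by ring⟩
  refine le_of_le_of_eq (b := (30688 * j ^ 6 + 345072 * j ^ 5 + 1601664 * j ^ 4 +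
    3921178 * j ^ 3 + 5327497 * j ^ 2 + 3795793 * j + 1102733) /
    (12 * (j + 1) * (j + 2) ^ 3 * (2 * j + 3) * (64 * (j + 1) ^ 2 + 72 * (j + 1) + 1) *
      (16 * (j + 1) ^ 2 + 56 * (j + 1) + 49))) (by positivity) ?_
  field_simp
  ring

/-- The loss factor lies below the ratio of Wallis integrals. -/
theorem rate_le {m : ℕ} (hm : 1 ≤ m) :
    rate m ^ 2 * (S (m + 1) ^ (m + 1) / S (m + 2) ^ m) ^ 2 ≤
      (2 * (m : ℝ) / ((m : ℝ) + 1)) ^ (2 * m + 2) *
        (((m : ℝ) + 2) / (2 * (m : ℝ) + 1)) ^ (2 * m + 1) * S (2 * m) ^ 2 := by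
  have hmr : (1 : ℝ) ≤ m := by exact_mod_cast hm
  set s := S (m + 1) with hs
  have hs0 : 0 < s := S_pos _
  have hsm : S (m + 2) = 2 * π / ((m : ℝ) + 2) / s := by
    rw [eq_div_iff hs0.ne', hs, mul_comm, S_mul (m + 1)]
    push_cast; ring
  set h₁ := hh 4 ((m : ℝ) + 1) with hh₁
  set h₂ := hh 0 (2 * (m : ℝ)) with hh₂
  have h₁0 : 0 < h₁ := by rw [hh₁, hh]; positivity
  have h₂0 : 0 < h₂ := by rw [hh₂, hh]; positivity
  have hu : s ^ 2 ≤ 4 * π / h₁ := by
    rw [le_div_iff₀ h₁0, hh₁, hs]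
    have := S_sq_le (m + 1)
    push_cast at this
    exact this
  have hw : 4 * π / h₂ ≤ S (2 * m) ^ 2 := by
    rw [div_le_iff₀ h₂0, hh₂]
    have := le_S_sq (k := 2 * m) (by omega)
    push_cast at this
    exact this
  have hlogs : rate m ^ 2 ≤ ((m : ℝ) / ((m : ℝ) + 1)) ^ (2 * m + 2) *
      (h₁ / (2 * (m : ℝ) + 1)) ^ (2 * m + 1) * (4 * ((m : ℝ) + 2) / h₂) := by
    have hp1 : 0 < (m : ℝ) / ((m : ℝ) + 1) := by positivity
    have hp2 : 0 < h₁ / (2 * (m : ℝ) + 1) := by positivity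
    have hp3 : 0 < 4 * ((m : ℝ) + 2) / h₂ := by positivity
    rw [rate, ← exp_nat_mul, ← le_log_iff_exp_le (by positivity), log_mul (by positivity) hp3.ne',
      log_mul (by positivity) (by positivity), log_pow, log_pow]
    have a := mul_le_mul_of_nonneg_left (log_pred_div_succ hmr)
      (by positivity : (0 : ℝ) ≤ 2 * m + 2)
    have b := mul_le_mul_of_nonneg_left (log_hh_div hmr)
      (by positivity : (0 : ℝ) ≤ 2 * m + 1)
    have c := log_ratio_hh hmr
    have d := rate_rat hmr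
    rw [← hh₁] at b
    rw [← hh₂] at c
    push_cast
    have e : (2 : ℝ) * (-5 / (8 * (m : ℝ) * ((m : ℝ) + 1))) =
        -(5 / (4 * (m : ℝ) * ((m : ℝ) + 1))) := by
      field_simp; ring
    linarith
  have hT : (S (m + 1) ^ (m + 1) / S (m + 2) ^ m) ^ 2 ≤
      4 * π * (2 * ((m : ℝ) + 2)) ^ (2 * m) / h₁ ^ (2 * m + 1) := by
    have e : (s ^ (m + 1) / S (m + 2) ^ m) ^ 2 =
        (s ^ 2) ^ (2 * m + 1) * ((m : ℝ) + 2) ^ (2 * m) / (2 * π) ^ (2 * m) := by
      rw [hsm, div_pow, div_pow, div_pow, div_pow, div_pow]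
      field_simp
      ring
    rw [e]
    calc _ ≤ (4 * π / h₁) ^ (2 * m + 1) * ((m : ℝ) + 2) ^ (2 * m) / (2 * π) ^ (2 * m) :=
          div_le_div_of_nonneg_right (mul_le_mul_of_nonneg_right
            (pow_le_pow_left₀ (sq_nonneg _) hu _) (by positivity)) (by positivity)
      _ = _ := by
          rw [div_pow, show (4 : ℝ) * π = 2 * (2 * π) by ring, mul_pow 2 ((m : ℝ) + 2),
            mul_pow 2 (2 * π)]
          field_simp
          ring
  calc rate m ^ 2 * (S (m + 1) ^ (m + 1) / S (m + 2) ^ m) ^ 2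
      ≤ (((m : ℝ) / ((m : ℝ) + 1)) ^ (2 * m + 2) *
          (h₁ / (2 * (m : ℝ) + 1)) ^ (2 * m + 1) * (4 * ((m : ℝ) + 2) / h₂)) *
          (4 * π * (2 * ((m : ℝ) + 2)) ^ (2 * m) / h₁ ^ (2 * m + 1)) :=
        mul_le_mul hlogs hT (sq_nonneg _) (by positivity)
    _ = (2 * (m : ℝ) / ((m : ℝ) + 1)) ^ (2 * m + 2) *
        (((m : ℝ) + 2) / (2 * (m : ℝ) + 1)) ^ (2 * m + 1) * (4 * π / h₂) := by
          simp only [div_pow, mul_pow, pow_succ]
          field_simp
          ring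
    _ ≤ _ := mul_le_mul_of_nonneg_left hw (by positivity)

lemma exp_five_sixteenths : Real.exp (5 / 16) ≤ 100 / 73 := by
  have h := Real.exp_bound' (x := 5 / 16) (by norm_num) (by norm_num) (n := 4) (by norm_num)
  norm_num [Finset.sum_range_succ, Nat.factorial] at h
  linarith

/-- All the loss factors from dimension four on lose at most a factor `73/100`. -/
theorem prod_rate (j : ℕ) : 73 / 100 ≤ ∏ i ∈ Finset.Icc 2 j, rate i := by
  have key : ∀ k : ℕ, ∏ i ∈ Finset.Icc 2 (k + 1), rate i =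
      Real.exp (-(5 / 8) * (1 / 2 - 1 / ((k : ℝ) + 2))) := by
    intro k
    induction k with
    | zero => simp
    | succ k ih =>
      rw [Finset.prod_Icc_succ_top (by omega), ih, rate, ← Real.exp_add]
      congr 1
      push_cast
      field_simp
      ring
  have hb : (73 / 100 : ℝ) ≤ Real.exp (-(5 / 16)) := by
    rw [Real.exp_neg, le_inv_comm₀ (by norm_num) (Real.exp_pos _)]
    exact exp_five_sixteenths.trans (by norm_num)
  rcases Nat.eq_zero_or_eq_succ_pred j with rfl | hj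
  · norm_num
  · rw [hj, key]
    refine hb.trans (Real.exp_le_exp.2 ?_)
    have : 0 ≤ 1 / (((j.pred : ℕ) : ℝ) + 2) := by positivity
    linarith

end Vale.Agent.P237.Uniform
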