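import Vale.Agent.P237.Uniform.Shape
import Vale.Agent.P237.Uniform.Rate

/-!
The profile lemma with the explicit losses.
-/

open MeasureTheory Set

namespace Vale.Agent.P237.Uniform

/-- The profile inequality in every dimension, with loss `exp (-5 / (8 m (m + 1)))`. -/
theorem profile_lemma {m : ℕ} (hm : 1 ≤ m) : UniformProfile m (rate m) := fun f hc he hge hT => by
  obtain ⟨F, D, hS, hTests, hfF⟩ := exists_shape hc he hge hT
  exact profile_of_shape hS hm hTests hfF (rate_pos m).le (rate_le hm)

end Vale.Agent.P237.Uniform
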