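import Vale.Agent.P237.Uniform.Final
import Vale.Agent.P237.Uniform.ProfileLemma

/-!
# P237: Petty's inequality up to an absolute constant
-/

open MeasureTheory Set
open scoped RealInnerProductSpace

namespace Vale.Agent.P237.Uniform

open Statement

/-- The uniform bound. -/
theorem uniform_petty :
    ∀ n : ℕ, 3 ≤ n → ∀ K : Set (Space n), IsConvexBody K →
      IsConvexBody (projectionBody K) ∧ IsSupportFun (projectionBody K) (projFun K) ∧
        Real.exp (-(5 / 8) * (1 / 2 - 1 / ((n : ℝ) - 1))) * pettyConst n * vol K ^ (n - 1) ≤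
          vol (projectionBody K) ∧
        73 / 100 * pettyConst n * vol K ^ (n - 1) ≤ vol (projectionBody K) := by
  intro n hn K hK
  obtain ⟨h1, h2, h3⟩ := uniform_petty_of (fun m hm => profile_lemma (m := m) (by omega)) n hn K hK
  refine ⟨h1, h2, h3, le_trans ?_ h3⟩
  have hn' : (3 : ℝ) ≤ n := by exact_mod_cast hn
  have hx : 0 ≤ 1 / ((n : ℝ) - 1) := by
    have : (0 : ℝ) < (n : ℝ) - 1 := by linarith
    positivity
  have he : (73 / 100 : ℝ) ≤ Real.exp (-(5 / 8) * (1 / 2 - 1 / ((n : ℝ) - 1))) := by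
    refine le_trans ?_ (Real.exp_le_exp.2 (show (-(5 / 16) : ℝ) ≤ _ by linarith))
    rw [Real.exp_neg, le_inv_comm₀ (by norm_num) (Real.exp_pos _)]
    refine (Real.exp_bound' (x := 5 / 16) (by norm_num) (by norm_num) (n := 4) (by norm_num)).trans ?_
    norm_num [Finset.sum_range_succ, Nat.factorial]
  have hp : 0 ≤ pettyConst n := by
    obtain ⟨j, rfl⟩ : ∃ j, n = j + 3 := ⟨n - 3, by omega⟩
    exact petty_nonneg (j + 1)
  exact mul_le_mul_of_nonneg_right (mul_le_mul_of_nonneg_right he hp)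
    (pow_nonneg ENNReal.toReal_nonneg _)

end Vale.Agent.P237.Uniform
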