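import Vale.Agent.P237.Uniform.Contact
import Vale.Agent.P237.Full.Final

/-!
# P237: Petty's inequality with the product of the profile losses, in every dimension
-/

open MeasureTheory Set Metric
open scoped RealInnerProductSpace Pointwise

namespace Vale.Agent.P237.Uniform

open Full

variable {m : ℕ}

lemma profileConst_nonneg (m : ℕ) : 0 ≤ profileConst m := by
  unfold profileConst
  exact div_nonneg
    (pow_nonneg (setIntegral_nonneg measurableSet_Icc fun t _ => by positivity) _)
    (pow_nonneg (setIntegral_nonneg measurableSet_Icc fun t _ => by positivity) _)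

/-- The bound at a symmetric minimiser. -/
lemma symm_min_bound (hm : 1 ≤ m) {C r : ℝ} (hC : 0 ≤ C)
    (hlow : ∀ L : Set (E (m + 1)), Body L → (interior L).Nonempty →
      C * (volume L).toReal ^ m ≤ (volume (projBody L)).toReal)
    (hP : UniformProfile m r) {Z : Set (E (m + 2))} (hZ : Cen Z) (hs : ∀ x ∈ Z, -x ∈ Z)
    (hmin : Full.IsMin Z) : C * (r * profileConst m) ≤ ratio Z := by
  obtain ⟨T, ν, F, hLc, hLs, hsupp, -, hconc, heven, hzero, hge, hfis⟩ := exists_fisher_profile hZ hs
  set L := T '' Z with hL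
  have hratio : ratio L = ratio Z := ratio_image T hZ.toBody
  have hLmin : Full.IsMin L := fun K h1 h2 => hratio ▸ hmin K h1 h2
  have hV0 := vol_pos hLc
  have hcl := ratio_mul_eq hLc (symm_min_structure hLc hLs hLmin) ν
  have hsh := shadow_int hm hC hlow hLc.toBody ⟨0, hLc.int⟩ F
  rw [← hcl, hsupp, mul_one] at hsh
  set κ := Statement.ballVol (m + 1)
  have hκ : 0 < κ := ballVol_pos m
  set f := F.rad L
  have hlem := hP f hconc heven hge hfis
  set I := ∫ t in Icc (-1 : ℝ) 1, f t ^ m
  set J := ∫ t in Icc (-1 : ℝ) 1, f t ^ (m + 1)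
  have hV : (volume L).toReal = κ * J := by
    rw [← (F.volume_slices L hLc.cpt).2, show J = ∫ t in Icc (-1 : ℝ) 1, f t ^ (m + 1) from rfl,
      setIntegral_eq_integral_of_forall_compl_eq_zero
        (fun t ht => by rw [hzero t ht, zero_pow (Nat.succ_ne_zero m)]), ← integral_const_mul]
    congr 1; funext t
    exact F.volume_slice_eq (Nat.succ_pos m) t
  obtain ⟨c, hc0, hc⟩ := exists_root (Nat.succ_ne_zero m) hκ.le
  have hS : (∫ t, (volume (F.slice L t)).toReal ^ ((m : ℝ) / (m + 1))) ^ (m + 1) =
      κ ^ m * I ^ (m + 1) := by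
    have hρ0 := fun t => F.rad_nonneg (K := L) (Nat.succ_pos m) t
    have e : ∀ t, (volume (F.slice L t)).toReal ^ ((m : ℝ) / (m + 1)) = c ^ m * f t ^ m := fun t => by
      rw [show (volume (F.slice L t)).toReal = (c * f t) ^ (m + 1) by
          rw [mul_pow, hc, F.volume_slice_eq (Nat.succ_pos m)],
        ← Real.rpow_natCast, ← Real.rpow_mul (mul_nonneg hc0 (hρ0 t)), ← mul_pow,
        ← Real.rpow_natCast (c * f t) m]
      congr 1; push_cast; field_simp
    simp only [e]
    rw [integral_const_mul, mul_pow, ← pow_mul, mul_comm m, pow_mul, hc,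
      show I = ∫ t in Icc (-1 : ℝ) 1, f t ^ m from rfl,
      setIntegral_eq_integral_of_forall_compl_eq_zero
        (fun t ht => by rw [hzero t ht, zero_pow (show m ≠ 0 by omega)])]
  rw [hS, hV] at hsh
  have hJ : 0 < J := by rw [hV] at hV0; exact pos_of_mul_pos_right hV0 hκ.le
  have key : C * I ^ (m + 1) ≤ ratio L * J ^ m := by
    refine le_of_mul_le_mul_left ?_ (pow_pos hκ m)
    rw [mul_pow] at hsh
    linarith
  have key2 : C * (r * profileConst m) * J ^ m ≤ C * I ^ (m + 1) := by
    rw [mul_assoc]; exact mul_le_mul_of_nonneg_left hlem hC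
  exact hratio ▸ le_of_mul_le_mul_right (key2.trans key) (pow_pos hJ m)

/-- Petty's inequality with factor `a` in dimension `m + 2`. -/
def PettyWith (a : ℝ) (m : ℕ) : Prop :=
  ∀ K : Set (E (m + 2)), Body K → (interior K).Nonempty →
    a * petty m * (volume K).toReal ^ (m + 1) ≤ (volume (projBody K)).toReal

lemma petty_nonneg (j : ℕ) : 0 ≤ petty j := by
  rw [petty]
  exact div_nonneg (pow_nonneg (ballVol_pos j).le _) (pow_nonneg (ballVol_pos (j + 1)).le _)

theorem pettyWith_succ {j : ℕ} {a r : ℝ} (ha : 0 ≤ a) (hlow : PettyWith a j)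
    (hP : UniformProfile (j + 1) r) : PettyWith (a * r) (j + 1) := by
  intro K hK hi
  obtain ⟨Z, hZ, hs, hmin, -⟩ := exists_symm_minimiser (j + 1)
  have h := (symm_min_bound (m := j + 1) (by omega) (mul_nonneg ha (petty_nonneg j)) hlow hP
    hZ hs hmin).trans (hmin K hK hi)
  have hV : 0 < (volume K).toReal := ENNReal.toReal_pos
    ((isOpen_interior.measure_pos volume hi).trans_le (measure_mono interior_subset)).ne'
    hK.cpt.measure_lt_top.ne
  rw [ratio, show j + 1 + 2 - 1 = j + 1 + 1 by omega, le_div_iff₀ (pow_pos hV _),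
    show a * petty j * (r * profileConst (j + 1)) = a * r * (petty j * profileConst (j + 1)) by ring,
    ← petty_succ_eq] at h
  exact h

/-- Dimension three, exact. -/
theorem pettyWith_three : PettyWith 1 1 := by
  intro K hK hi
  have h := (petty_three_of profileThree hK hi).1
  have e : petty 1 = 3 * Real.pi ^ 2 / 4 := pettyConst_three
  have hV : 0 < (volume K).toReal := ENNReal.toReal_pos
    ((isOpen_interior.measure_pos volume hi).trans_le (measure_mono interior_subset)).ne'
    hK.cpt.measure_lt_top.ne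
  rw [ratio, le_div_iff₀ (pow_pos hV _)] at h
  rwa [one_mul, e]

/-- **Assembly.** From dimension three, the profile inequalities give Petty's inequality up to the
product of the losses. -/
theorem pettyWith_prod {r : ℕ → ℝ} (hr : ∀ m, 2 ≤ m → 0 ≤ r m)
    (hP : ∀ m, 2 ≤ m → UniformProfile m (r m)) :
    ∀ j, PettyWith (∏ i ∈ Finset.Icc 2 (j + 1), r i) (j + 1)
  | 0 => by simpa using pettyWith_three
  | j + 1 => by
    rw [Finset.prod_Icc_succ_top (by omega : 2 ≤ j + 1 + 1)]
    exact pettyWith_succ (Finset.prod_nonneg fun i hi => hr i (Finset.mem_Icc.1 hi).1)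
      (pettyWith_prod hr hP j) (hP (j + 1 + 1) (by omega))

/-- Uniform form in the statement notions, in every dimension `≥ 3`. -/
theorem petty_uniform {r : ℕ → ℝ} {c : ℝ} (hr : ∀ m, 2 ≤ m → 0 ≤ r m)
    (hP : ∀ m, 2 ≤ m → UniformProfile m (r m))
    (hc : ∀ j, c ≤ ∏ i ∈ Finset.Icc 2 (j + 1), r i) {n : ℕ} (hn : 3 ≤ n)
    (K : Set (Statement.Space n)) (hK : Statement.IsConvexBody K) :
    c * Statement.pettyConst n * Statement.vol K ^ (n - 1) ≤
      Statement.vol (Statement.projectionBody K) := by
  obtain ⟨j, rfl⟩ : ∃ j, n = j + 3 := ⟨n - 3, by omega⟩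
  obtain ⟨hcv, hk, hi⟩ := hK
  have h := pettyWith_prod hr hP j K ⟨hcv, hk⟩ hi
  rw [projectionBody_eq, Statement.vol, Statement.vol]
  refine le_trans ?_ h
  exact mul_le_mul_of_nonneg_right
    (mul_le_mul_of_nonneg_right (hc j) (petty_nonneg (j + 1))) (pow_nonneg ENNReal.toReal_nonneg _)

end Vale.Agent.P237.Uniform
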