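import Vale.Agent.P237.Uniform.Profile

/-!
The profile as a continuous shape on `[0,1]` with a right derivative.
-/

open MeasureTheory Set Filter Topology Real intervalIntegral

namespace Vale.Agent.P237.Uniform

variable {m : ℕ} {f : ℝ → ℝ}

/-- An even concave function decreases away from `0`. -/
lemma antitone_of_even (hc : ConcaveOn ℝ (Icc (-1) 1) f) (he : ∀ t, f (-t) = f t) :
    AntitoneOn f (Icc 0 1) := by
  intro s hs t ht hst
  rcases hst.eq_or_lt with rfl | hlt
  · exact le_rfl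
  have ht0 : 0 < t := lt_of_le_of_lt hs.1 hlt
  have hp : 0 ≤ (t + s) / (2 * t) := div_nonneg (by linarith [hs.1]) (by linarith)
  have hq : 0 ≤ (t - s) / (2 * t) := div_nonneg (by linarith) (by linarith)
  have h := hc.2 (show t ∈ Icc (-1 : ℝ) 1 from ⟨by linarith, ht.2⟩)
    (show -t ∈ Icc (-1 : ℝ) 1 from ⟨by linarith [ht.2], by linarith⟩) hp hq (by field_simp; ring)
  simp only [smul_eq_mul, he] at h
  rw [show (t + s) / (2 * t) * t + (t - s) / (2 * t) * -t = s by field_simp; ring,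
    ← add_mul, show (t + s) / (2 * t) + (t - s) / (2 * t) = 1 by field_simp; ring, one_mul] at h
  exact h

/-- The continuous version of an even concave profile, with the integrals of even functions. -/
theorem exists_shape_core (hc : ConcaveOn ℝ (Icc (-1) 1) f) (he : ∀ t, f (-t) = f t)
    (hge : ∀ t ∈ Icc (-1 : ℝ) 1, √(1 - t ^ 2) ≤ f t) :
    ∃ F D, Shape F D ∧ (∀ t < 1, F t = f t) ∧
      ∀ (k : ℕ) (psi : ℝ → ℝ), Continuous psi → (∀ t, psi (-t) = psi t) →
        ∫ t in Icc (-1 : ℝ) 1, f t ^ k * psi t = 2 * ∫ t in (0 : ℝ)..1, F t ^ k * psi t := by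
  have ha := antitone_of_even hc he
  have hpos : ∀ t ∈ Ico (0 : ℝ) 1, 0 < f t := fun t ht =>
    (Real.sqrt_pos.2 (by nlinarith [ht.1, ht.2])).trans_le
      (hge t ⟨by linarith [ht.1], ht.2.le⟩)
  have hbd : BddBelow (f '' Ico 0 1) := ⟨0, by rintro _ ⟨t, ht, rfl⟩; exact (hpos t ht).le⟩
  have hne : (f '' Ico (0 : ℝ) 1).Nonempty := ⟨_, 0, ⟨le_rfl, zero_lt_one⟩, rfl⟩
  set l := sInf (f '' Ico (0 : ℝ) 1) with hl
  have hll : ∀ t ∈ Ico (0 : ℝ) 1, l ≤ f t := fun t ht => csInf_le hbd ⟨t, ht, rfl⟩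
  set F : ℝ → ℝ := fun t => if t < 1 then f t else l with hF
  have hFf : ∀ t, t < 1 → F t = f t := fun t ht => if_pos ht
  have hF1 : F 1 = l := if_neg (lt_irrefl 1)
  have hcont : ContinuousOn F (Icc 0 1) := by
    intro t ht
    rcases ht.2.eq_or_lt with rfl | h1
    · have htd : Tendsto F (𝓝[<] 1) (𝓝 l) := by
        refine tendsto_order.2 ⟨fun a hal => ?_, fun b hlb => ?_⟩
        · filter_upwards [Ioo_mem_nhdsLT (show (0 : ℝ) < 1 by norm_num)] with x hx
          rw [hFf x hx.2]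
          exact hal.trans_le (hll x ⟨hx.1.le, hx.2⟩)
        · obtain ⟨_, ⟨s, hs, rfl⟩, hsb⟩ := exists_lt_of_csInf_lt hne hlb
          filter_upwards [Ioo_mem_nhdsLT hs.2] with x hx
          rw [hFf x hx.2]
          exact (ha ⟨hs.1, hs.2.le⟩ ⟨hs.1.trans hx.1.le, hx.2.le⟩ hx.1.le).trans_lt hsb
      have hd : Tendsto F (𝓝[Icc 0 1 \ {1}] 1) (𝓝 l) := htd.mono_left
        (nhdsWithin_mono _ fun x hx => lt_of_le_of_ne hx.1.2 hx.2)
      rw [← hF1] at hd
      exact continuousWithinAt_sdiff_self.1 hd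
    · have h := hc.continuousOn_interior.continuousAt (x := t) (by
        rw [interior_Icc]; exact Ioo_mem_nhds (by linarith [ht.1]) h1)
      refine (h.congr ?_).continuousWithinAt
      filter_upwards [Iio_mem_nhds h1] with x hx using (hFf x hx).symm
  have hanti : AntitoneOn F (Icc 0 1) := by
    intro s hs t ht hst
    rcases ht.2.eq_or_lt with rfl | h1
    · rw [hF1]
      rcases hs.2.eq_or_lt with rfl | h2
      · rw [hF1]
      · rw [hFf s h2]; exact hll s ⟨hs.1, h2⟩
    · rw [hFf t h1, hFf s (hst.trans_lt h1)]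
      exact ha hs ht hst
  set D : ℝ → ℝ := fun t => derivWithin F (Ioi t) t with hD
  have hder : ∀ t ∈ Ioo (0 : ℝ) 1, HasDerivWithinAt F (D t) (Ioi t) t := by
    intro t ht
    have h1 := hc.neg.differentiableWithinAt_Ioi_of_mem_interior (x := t) (by
      rw [interior_Icc]; exact ⟨by linarith [ht.1], ht.2⟩)
    have h2 : DifferentiableWithinAt ℝ f (Ioi t) t := by simpa using h1.neg
    refine (h2.congr_of_eventuallyEq ?_ (hFf t ht.2)).hasDerivWithinAt
    filter_upwards [mem_nhdsWithin_of_mem_nhds (Iio_mem_nhds ht.2)] with x hx using hFf x hx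
  have hdnp : ∀ t ∈ Ioo (0 : ℝ) 1, D t ≤ 0 := by
    intro t ht
    have h := (hasDerivWithinAt_iff_tendsto_slope' (s := Ioi t) (fun h => lt_irrefl t h)).1 (hder t ht)
    refine le_of_tendsto h ?_
    filter_upwards [Ioo_mem_nhdsGT ht.2] with x hx
    rw [slope_def_field]
    exact div_nonpos_of_nonpos_of_nonneg (sub_nonpos.2
      (hanti (Ioo_subset_Icc_self ht) ⟨ht.1.le.trans hx.1.le, hx.2.le⟩ hx.1.le))
      (sub_nonneg.2 hx.1.le)
  have hS : Shape F D := ⟨hcont, hanti, fun t ht => by rw [hFf t ht.2]; exact hpos t ht,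
    by rw [hF1]; exact le_csInf hne fun _ ⟨t, ht, e⟩ => e ▸ (hpos t ht).le, hder, hdnp⟩
  -- symmetric integrals
  have key : ∀ (k : ℕ) (psi : ℝ → ℝ), Continuous psi → (∀ t, psi (-t) = psi t) →
      ∫ t in Icc (-1 : ℝ) 1, f t ^ k * psi t = 2 * ∫ t in (0 : ℝ)..1, F t ^ k * psi t := by
    intro k psi hp hev
    have hae : ∀ᵐ t : ℝ, t ∈ uIoc (0 : ℝ) 1 → f t ^ k * psi t = F t ^ k * psi t := by
      have h1 : ∀ᵐ t : ℝ, t ≠ 1 := by simp [ae_iff]
      filter_upwards [h1] with t h ht
      rw [uIoc_of_le zero_le_one] at ht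
      rw [hFf t (lt_of_le_of_ne ht.2 h)]
    have i1 : IntervalIntegrable (fun t => f t ^ k * psi t) volume 0 1 := by
      refine (Shape.intC (G := fun t => F t ^ k * psi t) ((hcont.pow k).mul hp.continuousOn)).congr_ae ?_
      exact ((ae_restrict_iff' measurableSet_uIoc).2 hae).mono fun t h => h.symm
    have i2 : IntervalIntegrable (fun t => f t ^ k * psi t) volume (-1) 0 := by
      have h := (IntervalIntegrable.iff_comp_neg).1 i1
      simp only [he, hev, neg_zero] at h
      exact h.symm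
    rw [integral_Icc_eq_integral_Ioc, ← intervalIntegral.integral_of_le (by norm_num : (-1 : ℝ) ≤ 1),
      ← integral_add_adjacent_intervals i2 i1]
    have e : ∫ t in (-1 : ℝ)..0, f t ^ k * psi t = ∫ t in (0 : ℝ)..1, f t ^ k * psi t := by
      have := integral_comp_neg (a := (0 : ℝ)) (b := 1) (fun t => f t ^ k * psi t)
      simp only [he, hev, neg_zero] at this
      exact this.symm
    rw [e, integral_congr_ae hae]
    ring
  exact ⟨F, D, hS, hFf, key⟩

/-- The continuous version of an even concave profile. -/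
theorem exists_shape (hc : ConcaveOn ℝ (Icc (-1) 1) f) (he : ∀ t, f (-t) = f t)
    (hge : ∀ t ∈ Icc (-1 : ℝ) 1, √(1 - t ^ 2) ≤ f t) (hT : FisherTest m f) :
    ∃ F D, Shape F D ∧ Tests m F ∧
      ∀ k : ℕ, ∫ t in Icc (-1 : ℝ) 1, f t ^ k = 2 * ∫ t in (0 : ℝ)..1, F t ^ k := by
  obtain ⟨F, D, hS, -, key⟩ := exists_shape_core hc he hge
  refine ⟨F, D, hS, fun ph dph hph hd hodd => ?_, fun k => by
    simpa using key k (fun _ => 1) continuous_const fun _ => rfl⟩
  have hdev : ∀ t, dph (-t) = dph t := fun t => by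
    have h1 := (hph (-t)).comp t (hasDerivAt_neg t)
    have h2 : HasDerivAt (fun t => ph (-t)) (-dph t) t :=
      ((hph t).neg).congr_of_eventuallyEq (Eventually.of_forall fun x => hodd x)
    have := h1.unique h2
    linarith
  have hc' : Continuous ph := continuous_iff_continuousAt.2 fun t => (hph t).continuousAt
  have h := hT ph dph hph hd
  rw [key (m + 1) _ (by fun_prop) (fun t => by simp only [hdev, hodd]; ring)] at h
  have h1 := key (m + 1) (fun _ => 1) continuous_const fun _ => rfl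
  simp only [mul_one] at h1
  rw [h1] at h
  linarith

end Vale.Agent.P237.Uniform
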