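import Vale.Agent.P084.John
import Vale.Agent.P237.Gauge

/-!
# P237: John position of a symmetric body

A linear image contains the unit ball and lies in the slabs of finitely many unit vectors that
decompose the identity.
-/

open MeasureTheory Set Metric Module Matrix
open scoped RealInnerProductSpace Pointwise

namespace Vale.Agent.P237.Uniform

variable {N : ℕ}

/-- John data without the structure. -/
lemma john_unpack {X : Type*} [NormedAddCommGroup X] [NormedSpace ℝ X] {n : ℕ}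
    (h : Nonempty (P084.JohnData X n)) :
    ∃ (M : ℕ) (e : X ≃ₗ[ℝ] (Fin n → ℝ)) (w : Fin M → ℝ) (v : Fin M → Fin n → ℝ),
      (∀ k, 0 ≤ w k) ∧ ∑ k, w k = 1 ∧ (∀ k x, |v k ⬝ᵥ e x| ≤ ‖x‖) ∧
      (∀ i j, ∑ k, w k * v k i * v k j = if i = j then 1 else 0) ∧
      (∀ g : Fin n → ℝ, (∀ x, |g ⬝ᵥ e x| ≤ ‖x‖) → g ⬝ᵥ g ≤ n) := by
  obtain ⟨D⟩ := h
  exact ⟨D.N, D.e.toLinearEquiv, D.w, D.v, D.w_nonneg, D.w_sum, D.v_le, D.iso, D.bound⟩

/-- The gauge of a symmetric body yields John data in coordinates. -/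
lemma exists_gauge_john {Z : Set (E N)} (hZ : Cen Z) (hs : ∀ x ∈ Z, -x ∈ Z) :
    ∃ (M : ℕ) (e : E N ≃ₗ[ℝ] (Fin N → ℝ)) (w : Fin M → ℝ) (v : Fin M → Fin N → ℝ),
      (∀ k, 0 ≤ w k) ∧ ∑ k, w k = 1 ∧ (∀ k x, |v k ⬝ᵥ e x| ≤ gauge Z x) ∧
      (∀ i j, ∑ k, w k * v k i * v k j = if i = j then 1 else 0) ∧
      (∀ g : Fin N → ℝ, (∀ x, |g ⬝ᵥ e x| ≤ gauge Z x) → g ⬝ᵥ g ≤ N) := by
  have hbd := NormedSpace.isVonNBounded_iff ℝ |>.2 hZ.cpt.isBounded
  let p : AddGroupNorm (E N) :=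
    { toFun := gauge Z
      map_zero' := gauge_zero
      add_le' := gauge_add_le hZ.conv hZ.absorbs
      neg' := gauge_neg hs
      eq_zero_of_map_eq_zero' := fun x hx => by
        by_contra h
        exact ((gauge_pos hZ.absorbs hbd).2 h).ne' hx }
  let ng : NormedAddCommGroup (E N) := p.toNormedAddCommGroup
  let ns : @NormedSpace ℝ (E N) _ ng.toSeminormedAddCommGroup :=
    @NormedSpace.mk ℝ (E N) _ ng.toSeminormedAddCommGroup (inferInstance : Module ℝ (E N))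
      fun a x => by
        show gauge Z (a • x) ≤ ‖a‖ * gauge Z x
        refine le_of_eq ?_
        rcases le_total 0 a with ha | ha
        · rw [gauge_smul_of_nonneg ha, Real.norm_eq_abs, abs_of_nonneg ha, smul_eq_mul]
        · rw [← neg_neg (a • x), gauge_neg hs, ← neg_smul, gauge_smul_of_nonneg (neg_nonneg.2 ha),
            Real.norm_eq_abs, abs_of_nonpos ha, smul_eq_mul]
  have hfd : FiniteDimensional ℝ (E N) := inferInstance
  refine @john_unpack (E N) ng ns N ?_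
  exact Eq.mp (congrArg (fun k => Nonempty (@P084.JohnData (E N) ng ns k))
    (finrank_euclideanSpace_fin (𝕜 := ℝ) (n := N))) (@P084.exists_johnData (E N) ng ns hfd)

/-- **John position.** -/
theorem exists_john {Z : Set (E N)} (hN : N ≠ 0) (hZ : Cen Z) (hs : ∀ x ∈ Z, -x ∈ Z) :
    ∃ (T : E N ≃L[ℝ] E N) (M : ℕ) (c : Fin M → ℝ) (u : Fin M → E N),
      closedBall 0 1 ⊆ T '' Z ∧ (∀ k, 0 ≤ c k) ∧ ∑ k, c k = (N : ℝ) ∧
      (∀ k, 0 < c k → ‖u k‖ = 1) ∧ (∀ k, ∀ x ∈ T '' Z, |⟪u k, x⟫| ≤ 1) ∧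
      (∀ x, ∑ k, c k * ⟪u k, x⟫ ^ 2 = ‖x‖ ^ 2) := by
  obtain ⟨M, e, w, v, hw, hw1, hv, hiso, hbd⟩ := exists_gauge_john hZ hs
  set r : ℝ := √(N : ℝ) with hr
  have hN' : (0 : ℝ) < N := by exact_mod_cast Nat.pos_of_ne_zero hN
  have hr0 : 0 < r := Real.sqrt_pos.2 hN'
  have hr2 : r ^ 2 = N := Real.sq_sqrt hN'.le
  let q := (WithLp.linearEquiv 2 ℝ (Fin N → ℝ)).symm
  let T : E N ≃L[ℝ] E N :=
    ((e.trans q).trans (LinearEquiv.smulOfNeZero ℝ _ r hr0.ne')).toContinuousLinearEquiv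
  have hT : ∀ x, T x = r • WithLp.toLp 2 (e x) := fun x => rfl
  set u : Fin M → E N := fun k => r⁻¹ • WithLp.toLp 2 (v k) with hu
  have hdot : ∀ a b : Fin N → ℝ, ⟪(WithLp.toLp 2 a : E N), WithLp.toLp 2 b⟫ = a ⬝ᵥ b := fun a b => by
    rw [EuclideanSpace.inner_toLp_toLp, star_trivial, dotProduct_comm]
  have huT : ∀ k x, ⟪u k, T x⟫ = v k ⬝ᵥ e x := fun k x => by
    rw [hu, hT, real_inner_smul_left, real_inner_smul_right, hdot, inv_mul_cancel_left₀ hr0.ne']
  have hslab : ∀ k, ∀ x ∈ T '' Z, |⟪u k, x⟫| ≤ 1 := by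
    rintro k _ ⟨z, hz, rfl⟩
    rw [huT]
    exact (hv k z).trans (gauge_le_one_of_mem hz)
  have hid : ∀ x : E N, ∑ k, (N * w k) * ⟪u k, x⟫ ^ 2 = ‖x‖ ^ 2 := by
    intro x
    obtain ⟨a, rfl⟩ : ∃ a, (WithLp.toLp 2 a : E N) = x := ⟨x.ofLp, WithLp.toLp_ofLp 2 x⟩
    rw [← real_inner_self_eq_norm_sq, hdot]
    have h1 : ∀ k, (N * w k) * ⟪u k, (WithLp.toLp 2 a : E N)⟫ ^ 2 =
        ∑ i, ∑ j, a i * a j * (w k * v k i * v k j) := fun k => by
      rw [hu, real_inner_smul_left, hdot, mul_pow, inv_pow, hr2]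
      rw [show (N * w k) * ((N : ℝ)⁻¹ * (v k ⬝ᵥ a) ^ 2) = w k * (v k ⬝ᵥ a) ^ 2 by field_simp]
      rw [dotProduct, pow_two, Finset.sum_mul_sum, Finset.mul_sum]
      refine Finset.sum_congr rfl fun i _ => ?_
      rw [Finset.mul_sum]
      exact Finset.sum_congr rfl fun j _ => by ring
    simp only [h1]
    rw [Finset.sum_comm, dotProduct]
    refine Finset.sum_congr rfl fun i _ => ?_
    rw [Finset.sum_comm]
    simp only [← Finset.mul_sum, hiso, mul_ite, mul_one, mul_zero, Finset.sum_ite_eq,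
      Finset.mem_univ, if_true]
  refine ⟨T, M, fun k => N * w k, u, ?_, fun k => mul_nonneg hN'.le (hw k),
    by rw [← Finset.mul_sum, hw1, mul_one], ?_, hslab, hid⟩
  · intro y hy
    by_contra hyZ
    obtain ⟨x, rfl⟩ := T.surjective y
    have hxZ : x ∉ Z := fun h => hyZ ⟨x, h, rfl⟩
    obtain ⟨f, s, hlt, hgt⟩ := geometric_hahn_banach_closed_point hZ.conv hZ.cpt.isClosed hxZ
    have hs0 : 0 < s := by simpa using hlt 0 (interior_subset hZ.int)
    have hfz : ∀ z, |f z| ≤ s * gauge Z z := by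
      intro z
      rcases eq_or_ne z 0 with rfl | h
      · simp [gauge_zero]
      have hg := (gauge_pos hZ.absorbs (NormedSpace.isVonNBounded_iff ℝ |>.2 hZ.cpt.isBounded)).2 h
      obtain ⟨k, hk, e'⟩ : z ∈ gauge Z z • Z := by rw [← hZ.level hg]; exact le_refl (gauge Z z)
      have h1 := hlt k hk
      have h2 := hlt _ (hs k hk)
      rw [map_neg] at h2
      have h3 : f z = gauge Z z * f k := by
        rw [← e', map_smul, smul_eq_mul, e']
      rw [h3, abs_mul, abs_of_pos hg, mul_comm s]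
      exact mul_le_mul_of_nonneg_left (abs_le.2 ⟨by linarith, h1.le⟩) hg.le
    set G := (InnerProductSpace.toDual ℝ (E N)).symm (f.comp (T.symm : E N →L[ℝ] E N)) with hG
    have hGT : ∀ z, ⟪G, T z⟫ = f z := fun z => by
      rw [hG, InnerProductSpace.toDual_symm_apply]
      simp
    set g : Fin N → ℝ := (r / s) • G.ofLp with hg'
    have hgx : ∀ z, g ⬝ᵥ e z = f z / s := fun z => by
      rw [hg', smul_dotProduct, ← hdot, WithLp.toLp_ofLp, ← hGT, hT, real_inner_smul_right,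
        smul_eq_mul]
      ring
    have hb := hbd g fun z => by
      rw [hgx, abs_div, abs_of_pos hs0, div_le_iff₀ hs0, mul_comm]
      exact hfz z
    rw [hg', smul_dotProduct, dotProduct_smul, ← hdot, WithLp.toLp_ofLp,
      real_inner_self_eq_norm_sq, smul_eq_mul, smul_eq_mul] at hb
    have h1 : ‖G‖ ≤ s := by
      refine (pow_le_pow_iff_left₀ (norm_nonneg _) hs0.le two_ne_zero).1 ?_
      rw [show r / s * (r / s * ‖G‖ ^ 2) = r ^ 2 * ‖G‖ ^ 2 / s ^ 2 by ring, hr2,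
        div_le_iff₀ (by positivity)] at hb
      exact le_of_mul_le_mul_left hb hN'
    have h2 : f x ≤ s := by
      rw [← hGT]
      refine (real_inner_le_norm _ _).trans ?_
      have h3 := mul_le_mul h1 (mem_closedBall_zero_iff.1 hy) (norm_nonneg _) hs0.le
      rwa [mul_one] at h3
    exact absurd hgt h2.not_gt
  · intro k hk
    have hle : ∀ j, ‖u j‖ ^ 2 ≤ 1 := fun j => by
      have h := hbd (v j) (hv j)
      rw [hu, ← real_inner_self_eq_norm_sq, real_inner_smul_left, real_inner_smul_right, hdot,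
        ← mul_assoc, ← pow_two, inv_pow, hr2, inv_mul_le_one₀ hN']
      exact h
    have htr : ∑ j, (N * w j) * ‖u j‖ ^ 2 = (N : ℝ) := by
      have h := fun i : Fin N => hid (EuclideanSpace.single i (1 : ℝ))
      simp only [EuclideanSpace.inner_single_right, starRingEnd_apply, star_trivial, one_mul,
        PiLp.norm_single, norm_one, one_pow] at h
      simp only [EuclideanSpace.real_norm_sq_eq, Finset.mul_sum]
      rw [Finset.sum_comm]
      simp [h]
    have hz : ∑ j, (N * w j) * (1 - ‖u j‖ ^ 2) = 0 := by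
      simp only [mul_sub, mul_one, Finset.sum_sub_distrib, htr, ← Finset.mul_sum, hw1, sub_self]
    have h0 := (Finset.sum_eq_zero_iff_of_nonneg
      (fun j _ => mul_nonneg (mul_nonneg hN'.le (hw j)) (sub_nonneg.2 (hle j)))).1 hz k
      (Finset.mem_univ _)
    rcases mul_eq_zero.1 h0 with h | h
    · exact absurd h hk.ne'
    · exact (pow_eq_one_iff_of_nonneg (norm_nonneg _) two_ne_zero).1 (by linarith)

end Vale.Agent.P237.Uniform
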