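import Vale.Agent.P237.Uniform.Defs
import Vale.Agent.P237.Uniform.John
import Vale.Agent.P237.Fisher.Cone

/-!
# P237: a contact direction in John position whose profile passes the Fisher test
-/

open MeasureTheory Set Metric
open scoped RealInnerProductSpace Pointwise

namespace Vale.Agent.P237.Uniform

variable {m : ℕ}

/-- Integrals of functions of `⟪x, ν⟫` through the profile. -/
lemma integral_profile {L : Set (E (m + 2))} (hL : IsCompact L) {ν : E (m + 2)} (F : Frame ν)
    (hzero : ∀ t, t ∉ Icc (-1 : ℝ) 1 → F.rad L t = 0) {psi : ℝ → ℝ} (hpsi : Continuous psi) :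
    ∫ x in L, psi ⟪x, ν⟫ =
      Statement.ballVol (m + 1) * ∫ t in Icc (-1 : ℝ) 1, F.rad L t ^ (m + 1) * psi t := by
  rw [(F.integral_slices hL (g := fun x => psi ⟪x, ν⟫) (by fun_prop)).2]
  simp only [F.inner_axis_S, setIntegral_const, smul_eq_mul, measureReal_def,
    F.volume_slice_eq (Nat.succ_pos m)]
  rw [setIntegral_eq_integral_of_forall_compl_eq_zero (fun t ht => by simp [hzero t ht]),
    ← integral_const_mul]
  simp only [mul_assoc]

/-- **One contact.** A linear image with a direction whose profile satisfies every Fisher test. -/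
theorem exists_fisher_profile {Z : Set (E (m + 2))} (hZ : Cen Z) (hs : ∀ x ∈ Z, -x ∈ Z) :
    ∃ (T : E (m + 2) ≃L[ℝ] E (m + 2)) (ν : E (m + 2)) (F : Frame ν),
      Cen (T '' Z) ∧ (∀ x ∈ T '' Z, -x ∈ T '' Z) ∧ supp (T '' Z) ν = 1 ∧
      closedBall 0 1 ⊆ T '' Z ∧
      ConcaveOn ℝ (Icc (-1) 1) (F.rad (T '' Z)) ∧
      (∀ t, F.rad (T '' Z) (-t) = F.rad (T '' Z) t) ∧
      (∀ t, t ∉ Icc (-1 : ℝ) 1 → F.rad (T '' Z) t = 0) ∧
      (∀ t ∈ Icc (-1 : ℝ) 1, √(1 - t ^ 2) ≤ F.rad (T '' Z) t) ∧
      FisherTest m (F.rad (T '' Z)) := by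
  obtain ⟨T, M, c, u, hball, hc, hc1, hu, hslab, hid⟩ :=
    exists_john (Nat.succ_ne_zero (m + 1)) hZ hs
  set L := T '' Z with hL
  have hLs : ∀ x ∈ L, -x ∈ L := by
    rintro _ ⟨x, hx, rfl⟩
    exact ⟨-x, hs x hx, map_neg T x⟩
  have hLb : Body L :=
    ⟨hZ.conv.linear_image (T.toLinearEquiv : E (m + 2) →ₗ[ℝ] E (m + 2)),
      hZ.cpt.image T.continuous⟩
  have hLc : Cen L := ⟨hLb, interior_mono hball
    (by rw [interior_closedBall _ one_ne_zero]; exact mem_ball_self one_pos)⟩
  have hne0 : L.Nonempty := ⟨0, interior_subset hLc.int⟩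
  let ι := {k : Fin M // 0 < c k}
  have hF : ∀ k : ι, Nonempty (Frame (u k)) := fun k => exists_frame (hu k k.2)
  let F : ∀ k : ι, Frame (u k) := fun k => Classical.choice (hF k)
  have hzero : ∀ (k : ι) t, t ∉ Icc (-1 : ℝ) 1 → (F k).rad L t = 0 := fun k t ht =>
    (F k).rad_eq_zero (Nat.succ_pos m) (eq_empty_iff_forall_notMem.2 fun y hy => ht (by
      have h := hslab k _ hy
      rw [real_inner_comm, (F k).inner_axis_S] at h
      exact abs_le.1 h))
  have hsupp : ∀ k : ι, supp L (u k) = 1 := fun k => by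
    obtain ⟨⟨x, hx, e⟩, h⟩ := supp_spec hLc.cpt hne0 (u k)
    refine le_antisymm (e ▸ (le_abs_self _).trans (hslab k x hx)) ?_
    have := h (u k) (hball (mem_closedBall_zero_iff.2 (hu k k.2).le))
    rwa [real_inner_self_eq_norm_sq, hu k k.2, one_pow] at this
  have hne : ∀ (k : ι), ∀ t ∈ Icc (-1 : ℝ) 1, ((F k).slice L t).Nonempty := fun k t ht =>
    ⟨0, hball (by
      rw [mem_closedBall_zero_iff]
      refine (pow_le_pow_iff_left₀ (norm_nonneg _) zero_le_one two_ne_zero).1 ?_
      rw [(F k).norm_sq_S, norm_zero]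
      nlinarith [ht.1, ht.2])⟩
  have hκ : 0 < Statement.ballVol (m + 1) := ballVol_pos m
  have hvol : ∀ k : ι, (volume L).toReal =
      Statement.ballVol (m + 1) * ∫ t in Icc (-1 : ℝ) 1, (F k).rad L t ^ (m + 1) := fun k => by
    have h := integral_profile hLc.cpt (F k) (hzero k) (psi := fun _ => 1) continuous_const
    simpa [measureReal_def] using h
  obtain ⟨k, hk⟩ : ∃ k : ι, FisherTest m ((F k).rad L) := by
    by_contra hall
    simp only [FisherTest, not_exists, not_forall, not_le, exists_prop] at hall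
    choose ph dph hph hphc hlt using hall
    have hsum : ∀ G : Fin M → ℝ, ∑ k : ι, c k * G k = ∑ k, c k * G k := fun G => by
      rw [← Finset.sum_subtype (Finset.univ.filter fun k => 0 < c k) (by simp)
        (fun k => c k * G k)]
      exact Finset.sum_filter_of_ne fun k _ h => (hc k).lt_of_ne' (left_ne_zero_of_mul h)
    have hfs := Fisher.fisher_sum (n := m + 1) hLc (Nat.succ_pos m) hball
      (u := fun k : ι => u k) (c := fun k : ι => c k) (fun k => hu k k.2) (fun k => k.2.le)
      (fun x => by rw [hsum fun k => ⟪u k, x⟫ ^ 2]; exact hid x) ph dph hph hphc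
    push_cast at hfs
    have hgt : ∀ k : ι, c k * (volume L).toReal < c k * ∫ x in L, (2 * dph k ⟪x, u k⟫ -
        ((m : ℝ) + 1 + 1) * ph k ⟪x, u k⟫ ^ 2 -
          2 * ⟪x, u k⟫ * ph k ⟪x, u k⟫ * dph k ⟪x, u k⟫) := fun k => by
      refine mul_lt_mul_of_pos_left ?_ k.2
      have hcph : Continuous (ph k) :=
        continuous_iff_continuousAt.2 fun t => (hph k t).continuousAt
      have hcdph := hphc k
      rw [integral_profile hLc.cpt (F k) (hzero k) (psi := fun t => 2 * dph k t -
        ((m : ℝ) + 1 + 1) * ph k t ^ 2 - 2 * t * ph k t * dph k t) (by fun_prop), hvol k,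
        show ((m : ℝ) + 1 + 1) = (m : ℝ) + 2 by ring]
      exact mul_lt_mul_of_pos_left (hlt k) hκ
    have hιne : (Finset.univ : Finset ι).Nonempty := by
      by_contra h
      rw [Finset.not_nonempty_iff_eq_empty] at h
      have h1 := hsum fun _ => (1 : ℝ)
      simp only [h, Finset.sum_empty, mul_one, hc1] at h1
      have : (0 : ℝ) < (m + 2 : ℕ) := by positivity
      linarith
    have h2 := Finset.sum_lt_sum_of_nonempty hιne fun k _ => hgt k
    rw [← Finset.sum_mul, show ∑ k : ι, c k = ((m : ℝ) + 1 + 1) by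
      have := hsum fun _ => (1 : ℝ)
      simp only [mul_one, hc1] at this
      rw [this]; push_cast; ring] at h2
    linarith
  exact ⟨T, u k, F k, hLc, hLs, hsupp k, hball, (F k).rad_concave (Nat.succ_pos m) hLb (hne k),
    (F k).rad_neg hLs, hzero k, fun t ht => by
      have h := (F k).le_rad (Nat.succ_pos m) hLb hball (abs_le.2 ht)
      rwa [one_pow] at h, hk⟩

end Vale.Agent.P237.Uniform
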