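import Vale.Agent.P237.Full.Assembly

/-!
# P237, uniform constant: the profile hypothesis

The one-dimensional statement in dimension `m + 2`, for the radial profile of a body in John
position at one contact direction.
-/

open MeasureTheory Set
open scoped RealInnerProductSpace

namespace Vale.Agent.P237.Uniform

/-- The Fisher constraint of one contact direction, tested by `C¹` functions. -/
def FisherTest (m : ℕ) (f : ℝ → ℝ) : Prop :=
  ∀ ph dph : ℝ → ℝ, (∀ t, HasDerivAt ph (dph t) t) → Continuous dph →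
    ∫ t in Icc (-1 : ℝ) 1,
        f t ^ (m + 1) * (2 * dph t - ((m : ℝ) + 2) * ph t ^ 2 - 2 * t * ph t * dph t) ≤
      ∫ t in Icc (-1 : ℝ) 1, f t ^ (m + 1)

/-- The profile inequality with loss factor `r` in dimension `m + 2`. -/
def UniformProfile (m : ℕ) (r : ℝ) : Prop :=
  ∀ f : ℝ → ℝ, ConcaveOn ℝ (Icc (-1) 1) f → (∀ t, f (-t) = f t) →
    (∀ t ∈ Icc (-1 : ℝ) 1, √(1 - t ^ 2) ≤ f t) → FisherTest m f →
    r * Full.profileConst m * (∫ t in Icc (-1 : ℝ) 1, f t ^ (m + 1)) ^ m ≤
      (∫ t in Icc (-1 : ℝ) 1, f t ^ m) ^ (m + 1)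

end Vale.Agent.P237.Uniform
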