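import Vale.Agent.P237.Uniform.Assembly
import Vale.Agent.P237.Bridge

/-!
# P237: the uniform bound in the statement notions

With losses `exp (-5 / (8 m (m+1)))` the product telescopes.
-/

open MeasureTheory Set
open scoped RealInnerProductSpace

namespace Vale.Agent.P237.Uniform

open Statement

/-- The losses telescope. -/
lemma prod_exp_rate (j : ℕ) :
    ∏ i ∈ Finset.Icc 2 (j + 1), Real.exp (-5 / (8 * i * (i + 1))) =
      Real.exp (-(5 / 8) * (1 / 2 - 1 / ((j : ℝ) + 2))) := by
  induction j with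
  | zero => simp
  | succ j ih =>
    rw [Finset.prod_Icc_succ_top (by omega : 2 ≤ j + 1 + 1), ih, ← Real.exp_add]
    congr 1
    push_cast
    field_simp
    ring

/-- Petty's inequality up to an absolute factor from the profile lemmas. -/
theorem uniform_petty_of
    (hP : ∀ m : ℕ, 2 ≤ m → UniformProfile m (Real.exp (-5 / (8 * m * (m + 1))))) :
    ∀ n : ℕ, 3 ≤ n → ∀ K : Set (Space n), IsConvexBody K →
      IsConvexBody (projectionBody K) ∧ IsSupportFun (projectionBody K) (projFun K) ∧
        Real.exp (-(5 / 8) * (1 / 2 - 1 / ((n : ℝ) - 1))) * pettyConst n * vol K ^ (n - 1) ≤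
          vol (projectionBody K) := by
  intro n hn K hK
  obtain ⟨h1, h2, -⟩ := statement_bound (by omega : 1 ≤ n) hK
  refine ⟨h1, h2, ?_⟩
  obtain ⟨j, rfl⟩ : ∃ j, n = j + 3 := ⟨n - 3, by omega⟩
  have h := pettyWith_prod (fun m _ => (Real.exp_pos _).le) hP j K ⟨hK.1, hK.2.1⟩ hK.2.2
  rw [prod_exp_rate] at h
  rw [projectionBody_eq, vol, vol, show (((j + 3 : ℕ) : ℝ) - 1) = (j : ℝ) + 2 by push_cast; ring]
  exact h

end Vale.Agent.P237.Uniform
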