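import Mathlib

/-!
Sharp two-sided bounds for the Wallis integrals `∫₀^π sin^k`.
-/

open Real Filter Topology Set intervalIntegral

namespace Vale.Agent.P237.Uniform

/-- The Wallis integral. -/
noncomputable def S (k : ℕ) : ℝ := ∫ x in (0 : ℝ)..π, sin x ^ k

lemma S_pos (k : ℕ) : 0 < S k := integral_sin_pow_pos k

lemma S_succ_le (k : ℕ) : S (k + 1) ≤ S k := integral_sin_pow_succ_le k

lemma S_succ_succ (k : ℕ) : S (k + 2) = ((k : ℝ) + 1) / ((k : ℝ) + 2) * S k := by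
  simp [S, integral_sin_pow]

lemma S_mul (k : ℕ) : S k * S (k + 1) = 2 * π / ((k : ℝ) + 1) := by
  induction k with
  | zero =>
    simp [S]
    ring
  | succ k ih =>
    rw [S_succ_succ k, show S (k + 1) * (((k : ℝ) + 1) / ((k : ℝ) + 2) * S k) =
      ((k : ℝ) + 1) / ((k : ℝ) + 2) * (S k * S (k + 1)) by ring, ih]
    push_cast
    field_simp
    ring

lemma S_sq_bounds (k : ℕ) :
    2 * π / ((k : ℝ) + 1) ≤ S k ^ 2 ∧ (1 ≤ k → S k ^ 2 ≤ 2 * π / (k : ℝ)) := by
  refine ⟨?_, fun hk => ?_⟩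
  · rw [← S_mul k, sq]
    exact mul_le_mul_of_nonneg_left (S_succ_le k) (S_pos k).le
  · obtain ⟨j, rfl⟩ := Nat.exists_eq_add_of_le' hk
    push_cast
    rw [← S_mul j, sq]
    exact mul_le_mul_of_nonneg_right (S_succ_le j) (S_pos _).le

/-- The correction factor. -/
noncomputable def hh (a : ℝ) (k : ℝ) : ℝ := 2 * k + 1 + 1 / (4 * k + a)

lemma S_sq_tendsto {a : ℝ} (ha : 0 ≤ a) :
    Tendsto (fun k : ℕ => S k ^ 2 * hh a k) atTop (𝓝 (4 * π)) := by
  have hlo : Tendsto (fun k : ℕ => 4 * π - 2 * π / ((k : ℝ) + 1)) atTop (𝓝 (4 * π)) := by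
    have := (tendsto_one_div_add_atTop_nhds_zero_nat (𝕜 := ℝ)).const_mul (2 * π)
    simpa [← mul_div_assoc, div_eq_mul_inv] using tendsto_const_nhds.sub this
  have hhi : Tendsto (fun k : ℕ => 4 * π + 4 * π / (k : ℝ)) atTop (𝓝 (4 * π)) := by
    simpa using tendsto_const_nhds.add (tendsto_const_div_atTop_nhds_zero_nat (4 * π))
  refine tendsto_of_tendsto_of_tendsto_of_le_of_le' hlo hhi ?_ ?_
  · filter_upwards [eventually_ge_atTop 1] with k hk
    have h1 := (S_sq_bounds k).1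
    have hk' : (1 : ℝ) ≤ k := by exact_mod_cast hk
    have h2 : 2 * (k : ℝ) + 1 ≤ hh a k := by
      have : 0 ≤ 1 / (4 * (k : ℝ) + a) := by positivity
      rw [hh]; linarith
    refine le_trans ?_ (mul_le_mul h1 h2 (by positivity) (sq_nonneg _))
    rw [show 4 * π - 2 * π / ((k : ℝ) + 1) = 2 * π / ((k : ℝ) + 1) * (2 * (k : ℝ) + 1) by
      field_simp; ring]
  · filter_upwards [eventually_ge_atTop 1] with k hk
    have h1 := (S_sq_bounds k).2 hk
    have hk' : (1 : ℝ) ≤ k := by exact_mod_cast hk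
    have h2 : hh a k ≤ 2 * (k : ℝ) + 2 := by
      have : 1 / (4 * (k : ℝ) + a) ≤ 1 := (div_le_one (by linarith)).2 (by linarith)
      rw [hh]; linarith
    have h3 : 0 ≤ hh a k := by rw [hh]; positivity
    refine le_trans (mul_le_mul h1 h2 h3 (by positivity)) ?_
    rw [show 4 * π + 4 * π / (k : ℝ) = 2 * π / (k : ℝ) * (2 * (k : ℝ) + 2) by field_simp; ring]

lemma step_eq (a : ℝ) (k : ℕ) :
    S (k + 2) ^ 2 * hh a ((k : ℝ) + 2) - S k ^ 2 * hh a k =
      S k ^ 2 * ((((k : ℝ) + 1) / ((k : ℝ) + 2)) ^ 2 * hh a ((k : ℝ) + 2) - hh a k) := by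
  rw [S_succ_succ]
  ring

/-- `S_k² (2k + 1 + 1/(4k+4)) ≤ 4π`. -/
lemma S_sq_le (k : ℕ) : S k ^ 2 * hh 4 k ≤ 4 * π := by
  have hmono : Monotone fun j : ℕ => S (k + 2 * j) ^ 2 * hh 4 ((k + 2 * j : ℕ) : ℝ) := by
    refine monotone_nat_of_le_succ fun j => ?_
    set i := k + 2 * j
    have h := step_eq 4 i
    have hi : (0 : ℝ) ≤ (i : ℝ) := by positivity
    have : 0 ≤ (((i : ℝ) + 1) / ((i : ℝ) + 2)) ^ 2 * hh 4 ((i : ℝ) + 2) - hh 4 i := by
      have key : hh 4 (i : ℝ) ≤ (((i : ℝ) + 1) / ((i : ℝ) + 2)) ^ 2 * hh 4 ((i : ℝ) + 2) := by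
        unfold hh
        rw [div_pow, div_mul_eq_mul_div, le_div_iff₀ (by positivity)]
        field_simp
        nlinarith [hi, mul_nonneg hi hi, mul_nonneg (mul_nonneg hi hi) hi]
      linarith
    have h2 := mul_nonneg (sq_nonneg (S i)) this
    rw [show k + 2 * (j + 1) = i + 2 by omega]
    push_cast
    linarith
  have hlim := (S_sq_tendsto (a := 4) (by norm_num)).comp
    (tendsto_atTop_mono (f := id) (fun j : ℕ => show j ≤ k + 2 * j by omega) tendsto_id)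
  simpa using hmono.ge_of_tendsto hlim 0

/-- `4π ≤ S_k² (2k + 1 + 1/(4k))`. -/
lemma le_S_sq {k : ℕ} (hk : 1 ≤ k) : 4 * π ≤ S k ^ 2 * hh 0 k := by
  have hanti : Antitone fun j : ℕ => S (k + 2 * j) ^ 2 * hh 0 ((k + 2 * j : ℕ) : ℝ) := by
    refine antitone_nat_of_succ_le fun j => ?_
    set i := k + 2 * j with hi'
    have h := step_eq 0 i
    have hi : (1 : ℝ) ≤ (i : ℝ) := by
      have : 1 ≤ i := by omega
      exact_mod_cast this
    have : (((i : ℝ) + 1) / ((i : ℝ) + 2)) ^ 2 * hh 0 ((i : ℝ) + 2) - hh 0 i ≤ 0 := by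
      have key : (((i : ℝ) + 1) / ((i : ℝ) + 2)) ^ 2 * hh 0 ((i : ℝ) + 2) ≤ hh 0 (i : ℝ) := by
        unfold hh
        rw [div_pow, div_mul_eq_mul_div, div_le_iff₀ (by positivity)]
        field_simp
        nlinarith [hi, mul_le_mul hi hi zero_le_one (by linarith : (0 : ℝ) ≤ i)]
      linarith
    have h2 := mul_nonpos_of_nonneg_of_nonpos (sq_nonneg (S i)) this
    rw [show k + 2 * (j + 1) = i + 2 by omega]
    push_cast
    linarith
  have hlim := (S_sq_tendsto (a := 0) le_rfl).comp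
    (tendsto_atTop_mono (f := id) (fun j : ℕ => show j ≤ k + 2 * j by omega) tendsto_id)
  simpa using hanti.le_of_tendsto hlim 0

end Vale.Agent.P237.Uniform
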