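import Vale.Agent.P237.Uniform.Defs
import Vale.Agent.P237.Uniform.Wallis

/-!
The profile inequality with loss from the Fisher constraint alone: a test function built from the
profile itself, no certificate and no entropy.
-/

open MeasureTheory Set Filter Topology Real intervalIntegral

namespace Vale.Agent.P237.Uniform

/-- A nonincreasing profile on `[0,1]` with right derivative `D`. -/
structure Shape (F D : ℝ → ℝ) : Prop where
  cont : ContinuousOn F (Icc 0 1)
  anti : AntitoneOn F (Icc 0 1)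
  pos : ∀ t ∈ Ico (0 : ℝ) 1, 0 < F t
  one_nonneg : 0 ≤ F 1
  deriv : ∀ t ∈ Ioo (0 : ℝ) 1, HasDerivWithinAt F (D t) (Ioi t) t
  dnonpos : ∀ t ∈ Ioo (0 : ℝ) 1, D t ≤ 0

variable {F D : ℝ → ℝ} {m : ℕ}

lemma Shape.cont' (h : Shape F D) : ContinuousOn F (uIcc 0 1) := by
  rw [uIcc_of_le zero_le_one]; exact h.cont

lemma Shape.nonneg (h : Shape F D) {t : ℝ} (ht : t ∈ Icc (0 : ℝ) 1) : 0 ≤ F t := by
  rcases ht.2.eq_or_lt with rfl | h1
  exacts [h.one_nonneg, (h.pos t ⟨ht.1, h1⟩).le]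

lemma Shape.intD (h : Shape F D) : IntervalIntegrable D volume 0 1 := by
  have h1 := integrableOn_deriv_right_of_nonneg (g := fun t => -F t) (g' := fun t => -D t)
    h.cont.neg (fun t ht => (h.deriv t ht).neg) (fun t ht => neg_nonneg.2 (h.dnonpos t ht))
  have h2 : IntervalIntegrable (fun t => -D t) volume 0 1 :=
    ⟨h1, by simp⟩
  exact h2.neg.congr (fun t _ => by simp)

lemma Shape.intMul (h : Shape F D) {G : ℝ → ℝ} (hG : ContinuousOn G (Icc 0 1)) :
    IntervalIntegrable (fun t => D t * G t) volume 0 1 :=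
  h.intD.mul_continuousOn (by rwa [uIcc_of_le zero_le_one])

lemma Shape.intC {G : ℝ → ℝ} (hG : ContinuousOn G (Icc 0 1)) :
    IntervalIntegrable G volume 0 1 :=
  ContinuousOn.intervalIntegrable (by rwa [uIcc_of_le zero_le_one])

/-- The right derivative of `F ^ (m + 1)`. -/
noncomputable def gd (m : ℕ) (F D : ℝ → ℝ) (t : ℝ) : ℝ := ((m : ℝ) + 1) * F t ^ m * D t

/-- The test functional after partial integration, without boundary term. -/
noncomputable def J (m : ℕ) (F D φ : ℝ → ℝ) : ℝ :=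
  ∫ t in (0 : ℝ)..1, (-(gd m F D t) * (2 * φ t - t * φ t ^ 2) - ((m : ℝ) + 1) * F t ^ (m + 1) * φ t ^ 2)

lemma Shape.intJ (h : Shape F D) {φ : ℝ → ℝ} (hφ : ContinuousOn φ (Icc 0 1)) :
    IntervalIntegrable (fun t => -(gd m F D t) * (2 * φ t - t * φ t ^ 2)) volume 0 1 ∧
    IntervalIntegrable (fun t => ((m : ℝ) + 1) * F t ^ (m + 1) * φ t ^ 2) volume 0 1 := by
  have hF := h.cont
  refine ⟨(h.intMul (G := fun t => -(((m : ℝ) + 1) * F t ^ m) * (2 * φ t - t * φ t ^ 2))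
    (by fun_prop)).congr (fun t _ => by simp only [gd]; ring), Shape.intC (by fun_prop)⟩

/-- Odd smooth tests. -/
def Tests (m : ℕ) (F : ℝ → ℝ) : Prop :=
  ∀ ph dph : ℝ → ℝ, (∀ t, HasDerivAt ph (dph t) t) → Continuous dph → (∀ t, ph (-t) = -ph t) →
    ∫ t in (0 : ℝ)..1, F t ^ (m + 1) * (2 * dph t - ((m : ℝ) + 2) * ph t ^ 2 - 2 * t * ph t * dph t) ≤
      ∫ t in (0 : ℝ)..1, F t ^ (m + 1)

lemma test_parts (h : Shape F D) (hT : Tests m F) {ph dph : ℝ → ℝ}
    (hph : ∀ t, HasDerivAt ph (dph t) t) (hd : Continuous dph) (hodd : ∀ t, ph (-t) = -ph t) :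
    F 1 ^ (m + 1) * (2 * ph 1 - ph 1 ^ 2) + J m F D ph ≤ ∫ t in (0 : ℝ)..1, F t ^ (m + 1) := by
  have hc : Continuous ph := continuous_iff_continuousAt.2 fun t => (hph t).continuousAt
  have hF := h.cont
  have hU : ∀ t, HasDerivAt (fun t => 2 * ph t - t * ph t ^ 2)
      (2 * dph t - (ph t ^ 2 + 2 * t * ph t * dph t)) t := fun t => by
    refine (((hph t).const_mul 2).sub ((hasDerivAt_id t).mul ((hph t).pow 2))).congr_deriv ?_
    simp; ring
  obtain ⟨i1, i2⟩ := h.intJ (m := m) (φ := ph) hc.continuousOn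
  have i3 : IntervalIntegrable
      (fun t => F t ^ (m + 1) * (2 * dph t - (ph t ^ 2 + 2 * t * ph t * dph t))) volume 0 1 :=
    Shape.intC (by fun_prop)
  have hftc := integral_eq_sub_of_hasDeriv_right_of_le (a := (0 : ℝ)) (b := 1)
    (f := fun t => F t ^ (m + 1) * (2 * ph t - t * ph t ^ 2))
    (f' := fun t => gd m F D t * (2 * ph t - t * ph t ^ 2) +
      F t ^ (m + 1) * (2 * dph t - (ph t ^ 2 + 2 * t * ph t * dph t)))
    zero_le_one (by fun_prop) (fun t ht => by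
      refine (((h.deriv t ht).pow (m + 1)).mul (hU t).hasDerivWithinAt).congr_deriv ?_
      simp [gd]) ((i1.neg.congr (fun t _ => by simp)).add i3)
  have h0 : ph 0 = 0 := by have := hodd 0; simp at this; linarith
  rw [h0] at hftc
  have e : ∫ t in (0 : ℝ)..1,
      F t ^ (m + 1) * (2 * dph t - ((m : ℝ) + 2) * ph t ^ 2 - 2 * t * ph t * dph t) =
      J m F D ph + ∫ t in (0 : ℝ)..1, (gd m F D t * (2 * ph t - t * ph t ^ 2) +
        F t ^ (m + 1) * (2 * dph t - (ph t ^ 2 + 2 * t * ph t * dph t))) := by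
    rw [J, ← intervalIntegral.integral_add (i1.sub i2) ((i1.neg.congr (fun t _ => by simp)).add i3)]
    refine integral_congr fun t _ => ?_
    ring
  have h1 := hT ph dph hph hd hodd
  rw [e, hftc] at h1
  simp only [one_mul, mul_zero, sub_zero, ne_eq, OfNat.ofNat_ne_zero, not_false_eq_true,
    zero_pow] at h1
  linarith

lemma J_tendsto (h : Shape F D) {ψ : ℕ → ℝ → ℝ} {φ : ℝ → ℝ} {B : ℝ}
    (hc : ∀ k, ContinuousOn (ψ k) (Icc 0 1)) (hb : ∀ k, ∀ t ∈ Icc (0 : ℝ) 1, |ψ k t| ≤ B)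
    (hl : ∀ t ∈ Ioo (0 : ℝ) 1, Tendsto (fun k => ψ k t) atTop (𝓝 (φ t))) :
    Tendsto (fun k => J m F D (ψ k)) atTop (𝓝 (J m F D φ)) := by
  have hF := h.cont
  refine intervalIntegral.tendsto_integral_filter_of_dominated_convergence
    (fun t => |gd m F D t| * (2 * B + B ^ 2) + ((m : ℝ) + 1) * F t ^ (m + 1) * B ^ 2)
    (Eventually.of_forall fun k => ?_) (Eventually.of_forall fun k => ?_) ?_ ?_
  · exact IntervalIntegrable.def' (f := fun t => -(gd m F D t) * (2 * ψ k t - t * ψ k t ^ 2) - ((m : ℝ) + 1) * F t ^ (m + 1) * ψ k t ^ 2) ((h.intJ (m := m) (hc k)).1.sub (h.intJ (m := m) (hc k)).2) |>.aestronglyMeasurable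
  · refine Eventually.of_forall fun t ht => ?_
    rw [uIoc_of_le zero_le_one] at ht
    have ht' : t ∈ Icc (0 : ℝ) 1 := Ioc_subset_Icc_self ht
    have hp := h.nonneg ht'
    have hB : 0 ≤ B := (abs_nonneg _).trans (hb k t ht')
    have hsq : ψ k t ^ 2 ≤ B ^ 2 := sq_le_sq' (abs_le.1 (hb k t ht')).1 (abs_le.1 (hb k t ht')).2
    rw [Real.norm_eq_abs]
    refine (abs_sub _ _).trans (add_le_add ?_ ?_)
    · rw [abs_mul, abs_neg]
      refine mul_le_mul_of_nonneg_left ((abs_sub _ _).trans (add_le_add ?_ ?_)) (abs_nonneg _)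
      · rw [abs_mul, abs_two]
        exact mul_le_mul_of_nonneg_left (hb k t ht') zero_le_two
      · rw [abs_mul, abs_of_nonneg ht'.1, abs_of_nonneg (sq_nonneg _)]
        exact (mul_le_of_le_one_left (sq_nonneg _) ht'.2).trans hsq
    · rw [abs_of_nonneg (by positivity)]
      exact mul_le_mul_of_nonneg_left hsq (by positivity)
  · refine IntervalIntegrable.add ?_ (Shape.intC (by fun_prop))
    exact ((h.intMul (G := fun t => ((m : ℝ) + 1) * F t ^ m) (by fun_prop)).congr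
      (fun t _ => by simp only [gd]; ring)).abs.mul_const _
  · have h1 : ∀ᵐ t : ℝ, t ≠ 1 := by simp [ae_iff]
    filter_upwards [h1] with t ht htI
    rw [uIoc_of_le zero_le_one] at htI
    have := hl t ⟨htI.1, lt_of_le_of_ne htI.2 ht⟩
    exact (((this.const_mul 2).sub ((this.pow 2).const_mul t)).const_mul _).sub
      ((this.pow 2).const_mul _)

/-- The test extends to continuous functions vanishing at `0`. -/
lemma test_cont (h : Shape F D) (hT : Tests m F) {ψ : ℝ → ℝ} (hψ : ContinuousOn ψ (Icc 0 1))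
    (h0 : ψ 0 = 0) :
    F 1 ^ (m + 1) * (2 * ψ 1 - ψ 1 ^ 2) + J m F D ψ ≤ ∫ t in (0 : ℝ)..1, F t ^ (m + 1) := by
  set o : ℝ → ℝ := fun t => ψ (min (max t 0) 1) - ψ (min (max (-t) 0) 1) with ho
  have hoc : Continuous o := by
    have hm : ∀ t : ℝ, min (max t 0) 1 ∈ Icc (0 : ℝ) 1 := fun t =>
      ⟨le_min (le_max_right _ _) zero_le_one, min_le_right _ _⟩
    exact ((hψ.comp_continuous (by fun_prop) hm).sub
      ((hψ.comp_continuous (f := fun t : ℝ => min (max (-t) 0) 1) (by fun_prop) fun t => hm (-t))))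
  have hoψ : ∀ t ∈ Icc (0 : ℝ) 1, o t = ψ t := fun t ht => by
    simp only [ho]
    rw [max_eq_left ht.1, min_eq_left ht.2, max_eq_right (by linarith [ht.1]),
      min_eq_left zero_le_one, h0, sub_zero]
  have hex : ∀ k : ℕ, ∃ ph dph : ℝ → ℝ, (∀ t, HasDerivAt ph (dph t) t) ∧ Continuous dph ∧
      (∀ t, ph (-t) = -ph t) ∧ ∀ t ∈ Icc (0 : ℝ) 1, |ph t - ψ t| ≤ 1 / ((k : ℝ) + 1) := by
    intro k
    obtain ⟨q, hq⟩ := exists_polynomial_near_of_continuousOn (-1) 1 o hoc.continuousOn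
      (1 / ((k : ℝ) + 1)) (by positivity)
    set r := Polynomial.C (1 / 2 : ℝ) * (q - q.comp (-Polynomial.X)) with hr
    have hev : ∀ t : ℝ, r.eval t = (q.eval t - q.eval (-t)) / 2 := fun t => by
      simp [hr]; ring
    refine ⟨fun t => r.eval t, fun t => r.derivative.eval t, r.hasDerivAt, r.derivative.continuous,
      fun t => ?_, fun t ht => ?_⟩
    · simp only [hev, neg_neg]; ring
    · have h1 := hq t ⟨by linarith [ht.1], ht.2⟩
      have h2 := hq (-t) ⟨by linarith [ht.2], by linarith [ht.1]⟩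
      have e : o (-t) = -o t := by simp [ho]
      rw [e, abs_lt] at h2
      rw [hoψ t ht] at h1 h2
      rw [abs_lt] at h1
      simp only [hev]
      rw [abs_le]
      constructor <;> linarith
  choose ph dph hph hd hodd hnear using hex
  obtain ⟨B, hB⟩ := isCompact_Icc.exists_bound_of_continuousOn hψ
  have hl : ∀ t ∈ Icc (0 : ℝ) 1, Tendsto (fun k => ph k t) atTop (𝓝 (ψ t)) := fun t ht => by
    rw [tendsto_iff_norm_sub_tendsto_zero]
    exact squeeze_zero (fun k => norm_nonneg _) (fun k => hnear k t ht)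
      tendsto_one_div_add_atTop_nhds_zero_nat
  have hJ := J_tendsto (m := m) h (ψ := ph) (φ := ψ) (B := B + 1)
    (fun k => (continuous_iff_continuousAt.2 fun t => (hph k t).continuousAt).continuousOn)
    (fun k t ht => by
      have h1 := hB t ht
      have h2 := hnear k t ht
      have h3 : 1 / ((k : ℝ) + 1) ≤ 1 := (div_le_one (by positivity)).2 (by simp)
      have h4 := abs_add_le (ph k t - ψ t) (ψ t)
      rw [sub_add_cancel] at h4
      rw [Real.norm_eq_abs] at h1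
      linarith) (fun t ht => hl t (Ioo_subset_Icc_self ht))
  have h1 := hl 1 ⟨zero_le_one, le_rfl⟩
  exact le_of_tendsto' ((((h1.const_mul 2).sub (h1.pow 2)).const_mul _).add hJ)
    fun k => test_parts h hT (hph k) (hd k) (hodd k)

/-- The test with value one at the end point and `φ` inside. -/
lemma test_jump (h : Shape F D) (hT : Tests m F) {φ : ℝ → ℝ} (hφ : ContinuousOn φ (Icc 0 1))
    (h0 : φ 0 = 0) :
    F 1 ^ (m + 1) + J m F D φ ≤ ∫ t in (0 : ℝ)..1, F t ^ (m + 1) := by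
  obtain ⟨B, hB⟩ := isCompact_Icc.exists_bound_of_continuousOn hφ
  set ψ : ℕ → ℝ → ℝ := fun k t => φ t * (1 - t ^ (k + 1)) + t ^ (k + 1) with hψ
  have hJ := J_tendsto (m := m) h (ψ := ψ) (φ := φ) (B := B + 1) (fun k => by fun_prop)
    (fun k t ht => by
      have h1 := hB t ht
      rw [Real.norm_eq_abs] at h1
      have h2 : 0 ≤ t ^ (k + 1) := pow_nonneg ht.1 _
      have h3 : t ^ (k + 1) ≤ 1 := pow_le_one₀ ht.1 ht.2
      refine (abs_add_le _ _).trans (add_le_add ?_ (by rwa [abs_of_nonneg h2]))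
      rw [abs_mul, abs_of_nonneg (by linarith : (0 : ℝ) ≤ 1 - t ^ (k + 1))]
      exact (mul_le_of_le_one_right (abs_nonneg _) (by linarith)).trans h1)
    (fun t ht => by
      have hp : Tendsto (fun k : ℕ => t ^ (k + 1)) atTop (𝓝 0) :=
        (tendsto_pow_atTop_nhds_zero_of_lt_one ht.1.le ht.2).comp (tendsto_add_atTop_nat 1)
      simpa using ((hp.const_sub 1).const_mul (φ t)).add hp)
  refine le_of_tendsto' (hJ.const_add _) fun k => ?_
  have h1 := test_cont h hT (ψ := ψ k) (by fun_prop) (by simp [hψ, h0])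
  have e : ψ k 1 = 1 := by simp [hψ]
  rw [e] at h1
  norm_num at h1
  exact h1

/-- The cut-off root of `1/s - u`. -/
noncomputable def w (δ u s : ℝ) : ℝ := √(max 0 (1 / max s δ - u))

lemma w_continuous {δ : ℝ} (hδ : 0 < δ) (u : ℝ) : Continuous (w δ u) := by
  have : ∀ s : ℝ, max s δ ≠ 0 := fun s => (lt_max_of_lt_right hδ).ne'
  unfold w; fun_prop (disch := simp [this])

lemma w_sq_le {δ u s : ℝ} (hs : 0 < s) (hu : u ≤ 1 / s) : w δ u s ^ 2 ≤ 1 / s - u := by
  rw [w, Real.sq_sqrt (le_max_left _ _)]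
  exact max_le (by linarith) (by have := one_div_le_one_div_of_le hs (le_max_left s δ); linarith)

/-- The bound for one value of the scale `σ` and of the cut-off. -/
lemma bound_cut (h : Shape F D) (hm : 1 ≤ m) (hT : Tests m F) {δ σ : ℝ} (hδ : 0 < δ) (hσ : 0 < σ) :
    2 * σ * (∫ s in (0 : ℝ)..F 0, ((m : ℝ) + 1) * s ^ m * w δ (1 / F 0) s) ≤
      σ ^ 2 * (∫ t in (0 : ℝ)..1, F t ^ (m + 1)) +
        (((m : ℝ) + 1) ^ 2 / m * (∫ t in (0 : ℝ)..1, F t ^ m) -
          ((m : ℝ) + 2) / F 0 * ∫ t in (0 : ℝ)..1, F t ^ (m + 1)) := by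
  set u := 1 / F 0 with hu
  have hF := h.cont
  have hwc := w_continuous hδ u
  have hF0 : 0 < F 0 := h.pos 0 ⟨le_rfl, zero_lt_one⟩
  have hu0 : 0 < u := by positivity
  have hm0 : (0 : ℝ) < m := by exact_mod_cast hm
  have hule : ∀ s, 0 < s → s ≤ F 0 → u ≤ 1 / s := fun s h1 h2 => one_div_le_one_div_of_le h1 h2
  set φ : ℝ → ℝ := fun t => w δ u (F t) / σ with hφ
  have hφc : ContinuousOn φ (Icc 0 1) := (hwc.comp_continuousOn hF).div_const _
  have hφ0 : φ 0 = 0 := by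
    have : 1 / max (F 0) δ - u ≤ 0 := by
      have := one_div_le_one_div_of_le hF0 (le_max_left (F 0) δ)
      linarith
    simp only [hφ, w, max_eq_left this, Real.sqrt_zero, zero_div]
  have hmain := test_jump h hT hφc hφ0
  set A := fun t => -(((m : ℝ) + 1) * F t ^ m * w δ u (F t) * D t) with hA
  have iA : IntervalIntegrable A volume 0 1 :=
    (h.intMul (G := fun t => -(((m : ℝ) + 1) * F t ^ m * w δ u (F t)))
      (((continuousOn_const.mul (hF.pow m)).mul (hwc.comp_continuousOn hF)).neg)).congr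
      (fun t _ => by simp only [hA]; ring)
  set E := fun t => ((m : ℝ) + 1) ^ 2 / m * F t ^ m
      - ((m : ℝ) + 1) / m * (F t ^ m + t * ((m : ℝ) * F t ^ (m - 1) * D t))
      + u * ((F t ^ (m + 1) + t * gd m F D t) - ((m : ℝ) + 2) * F t ^ (m + 1)) with hE
  have ip : IntervalIntegrable (fun t => F t ^ m) volume 0 1 := Shape.intC (hF.pow m)
  have ip1 : IntervalIntegrable (fun t => F t ^ (m + 1)) volume 0 1 := Shape.intC (hF.pow _)
  have id1 : IntervalIntegrable (fun t => F t ^ m + t * ((m : ℝ) * F t ^ (m - 1) * D t)) volume 0 1 :=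
    ip.add ((h.intMul (G := fun t => t * ((m : ℝ) * F t ^ (m - 1))) (by fun_prop)).congr
      (fun t _ => by ring))
  have id2 : IntervalIntegrable (fun t => F t ^ (m + 1) + t * gd m F D t) volume 0 1 :=
    ip1.add ((h.intMul (G := fun t => t * (((m : ℝ) + 1) * F t ^ m)) (by fun_prop)).congr
      (fun t _ => by simp only [gd]; ring))
  have iE : IntervalIntegrable E volume 0 1 :=
    ((ip.const_mul _).sub (id1.const_mul _)).add ((id2.sub (ip1.const_mul _)).const_mul _)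
  have e1 : ∫ t in (0 : ℝ)..1, (F t ^ m + t * ((m : ℝ) * F t ^ (m - 1) * D t)) = F 1 ^ m := by
    rw [integral_eq_sub_of_hasDeriv_right_of_le (f := fun t => t * F t ^ m) zero_le_one
      (by fun_prop) (fun t ht => ((hasDerivWithinAt_id t _).mul ((h.deriv t ht).pow m)).congr_deriv
        (by simp)) id1]
    simp
  have e2 : ∫ t in (0 : ℝ)..1, (F t ^ (m + 1) + t * gd m F D t) = F 1 ^ (m + 1) := by
    rw [integral_eq_sub_of_hasDeriv_right_of_le (f := fun t => t * F t ^ (m + 1)) zero_le_one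
      (by fun_prop) (fun t ht => ((hasDerivWithinAt_id t _).mul
        ((h.deriv t ht).pow (m + 1))).congr_deriv (by simp [gd])) id2]
    simp
  have eE : ∫ t in (0 : ℝ)..1, E t = ((m : ℝ) + 1) ^ 2 / m * (∫ t in (0 : ℝ)..1, F t ^ m)
      - ((m : ℝ) + 1) / m * F 1 ^ m
      + u * (F 1 ^ (m + 1) - ((m : ℝ) + 2) * ∫ t in (0 : ℝ)..1, F t ^ (m + 1)) := by
    simp only [hE]
    rw [intervalIntegral.integral_add ((ip.const_mul _).sub (id1.const_mul _))
        ((id2.sub (ip1.const_mul _)).const_mul _),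
      intervalIntegral.integral_sub (ip.const_mul _) (id1.const_mul _),
      intervalIntegral.integral_const_mul, intervalIntegral.integral_const_mul,
      intervalIntegral.integral_const_mul, intervalIntegral.integral_sub id2 (ip1.const_mul _),
      intervalIntegral.integral_const_mul, e1, e2]
  -- pointwise bound of the test integrand
  obtain ⟨j1, j2⟩ := h.intJ (m := m) hφc
  have hJ : 2 / σ * (∫ t in (0 : ℝ)..1, A t) - 1 / σ ^ 2 * ∫ t in (0 : ℝ)..1, E t ≤ J m F D φ := by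
    rw [← intervalIntegral.integral_const_mul, ← intervalIntegral.integral_const_mul,
      ← intervalIntegral.integral_sub (iA.const_mul _) (iE.const_mul _)]
    refine integral_mono_on_of_le_Ioo zero_le_one ((iA.const_mul _).sub (iE.const_mul _))
      (j1.sub j2) fun t ht => ?_
    have hpos := h.pos t ⟨ht.1.le, ht.2⟩
    have hle : F t ≤ F 0 := h.anti ⟨le_rfl, zero_le_one⟩ (Ioo_subset_Icc_self ht) ht.1.le
    have hw := w_sq_le (δ := δ) hpos (hule _ hpos hle)
    have hdd := h.dnonpos t ht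
    have hM : 0 ≤ ((m : ℝ) + 1) * F t ^ (m + 1) - t * gd m F D t := by
      have : gd m F D t ≤ 0 := mul_nonpos_of_nonneg_of_nonpos (by positivity) hdd
      nlinarith [pow_nonneg hpos.le (m + 1), ht.1]
    have eE' : (((m : ℝ) + 1) * F t ^ (m + 1) - t * gd m F D t) * (1 / F t - u) = E t := by
      obtain ⟨i, rfl⟩ : ∃ i, m = i + 1 := ⟨m - 1, by omega⟩
      simp only [hE, gd, Nat.add_sub_cancel, pow_succ]
      push_cast
      field_simp
      ring
    have h2 := mul_le_mul_of_nonneg_left hw hM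
    rw [eE'] at h2
    have hid : -gd m F D t * (2 * φ t - t * φ t ^ 2) - ((m : ℝ) + 1) * F t ^ (m + 1) * φ t ^ 2 =
        2 / σ * A t - 1 / σ ^ 2 *
          ((((m : ℝ) + 1) * F t ^ (m + 1) - t * gd m F D t) * w δ u (F t) ^ 2) := by
      simp only [hA, hφ, gd]
      field_simp
      ring
    rw [hid]
    gcongr
  -- substitution
  have hsub : ∫ t in (0 : ℝ)..1, A t = ∫ s in F 1..F 0, ((m : ℝ) + 1) * s ^ m * w δ u s := by
    rw [integral_symm (F 0) (F 1), ← integral_comp_mul_deriv''' (f' := D)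
      (g := fun s => ((m : ℝ) + 1) * s ^ m * w δ u s) h.cont'
      (fun t ht => h.deriv t (by rwa [min_eq_left zero_le_one, max_eq_right zero_le_one] at ht))
      (Continuous.continuousOn (by fun_prop))
      ((by fun_prop : Continuous fun s => ((m : ℝ) + 1) * s ^ m * w δ u s).continuousOn
        |>.integrableOn_compact (isCompact_uIcc.image_of_continuousOn h.cont'))
      ?_, ← intervalIntegral.integral_neg]
    · refine integral_congr fun t _ => ?_
      simp [hA]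
    · rw [uIcc_of_le zero_le_one, ← intervalIntegrable_iff_integrableOn_Icc_of_le zero_le_one
        enorm_ne_top]
      exact iA.neg.congr (fun t _ => by simp [hA])
  have hab : F 1 ≤ F 0 := h.anti ⟨le_rfl, zero_le_one⟩ ⟨zero_le_one, le_rfl⟩ zero_le_one
  have ha := h.one_nonneg
  have iw : ∀ a b : ℝ, IntervalIntegrable (fun s => ((m : ℝ) + 1) * s ^ m * w δ u s) volume a b :=
    fun a b => (by fun_prop : Continuous fun s => ((m : ℝ) + 1) * s ^ m * w δ u s).intervalIntegrable _ _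
  -- the part below the end value
  have htail : 2 / σ * (∫ s in (0 : ℝ)..F 1, ((m : ℝ) + 1) * s ^ m * w δ u s) ≤
      F 1 ^ (m + 1) + 1 / σ ^ 2 * (((m : ℝ) + 1) / m * F 1 ^ m - u * F 1 ^ (m + 1)) := by
    have hc : ∫ s in (0 : ℝ)..F 1, (((m : ℝ) + 1) * s ^ m +
        1 / σ ^ 2 * (((m : ℝ) + 1) * s ^ (m - 1) - u * (((m : ℝ) + 1) * s ^ m))) =
        F 1 ^ (m + 1) + 1 / σ ^ 2 * (((m : ℝ) + 1) / m * F 1 ^ m - u * F 1 ^ (m + 1)) := by
      obtain ⟨i, rfl⟩ : ∃ i, m = i + 1 := ⟨m - 1, by omega⟩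
      rw [intervalIntegral.integral_add (Continuous.intervalIntegrable (by fun_prop) _ _)
          (Continuous.intervalIntegrable (by fun_prop) _ _),
        intervalIntegral.integral_const_mul, intervalIntegral.integral_const_mul,
        intervalIntegral.integral_sub (Continuous.intervalIntegrable (by fun_prop) _ _)
          (Continuous.intervalIntegrable (by fun_prop) _ _),
        intervalIntegral.integral_const_mul, intervalIntegral.integral_const_mul,
        intervalIntegral.integral_const_mul, integral_pow, integral_pow]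
      simp
      field_simp
    rw [← hc, ← intervalIntegral.integral_const_mul]
    refine integral_mono_on_of_le_Ioo ha ((iw _ _).const_mul _)
      (Continuous.intervalIntegrable (by fun_prop) _ _) fun s hs => ?_
    have hw := w_sq_le (δ := δ) hs.1 (hule s hs.1 (hs.2.le.trans hab))
    have hsm : s ^ m = s ^ (m - 1) * s := by rw [← pow_succ]; congr 1; omega
    have h2 : 2 / σ * w δ u s ≤ 1 + 1 / σ ^ 2 * (1 / s - u) := by
      have h3 := two_mul_le_add_sq 1 (w δ u s / σ)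
      have h4 : (w δ u s / σ) ^ 2 ≤ 1 / σ ^ 2 * (1 / s - u) := by
        rw [div_pow, one_div, inv_mul_eq_div]; gcongr
      calc 2 / σ * w δ u s = 2 * 1 * (w δ u s / σ) := by ring
        _ ≤ _ := by linarith
    have h5 := mul_le_mul_of_nonneg_left h2
      (show (0 : ℝ) ≤ ((m : ℝ) + 1) * s ^ m from mul_nonneg (by positivity) (pow_nonneg hs.1.le _))
    have h6 : ((m : ℝ) + 1) * s ^ m * (1 + 1 / σ ^ 2 * (1 / s - u)) =
        ((m : ℝ) + 1) * s ^ m +
          1 / σ ^ 2 * (((m : ℝ) + 1) * s ^ (m - 1) - u * (((m : ℝ) + 1) * s ^ m)) := by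
      rw [hsm]
      field_simp [hs.1.ne']
    linarith
  have hsplit := intervalIntegral.integral_add_adjacent_intervals (iw 0 (F 1)) (iw (F 1) (F 0))
  rw [hsub, eE] at hJ
  have := pow_pos hσ 2
  have key : 2 / σ * (∫ s in (0 : ℝ)..F 0, ((m : ℝ) + 1) * s ^ m * w δ u s) ≤
      (∫ t in (0 : ℝ)..1, F t ^ (m + 1)) + 1 / σ ^ 2 *
        (((m : ℝ) + 1) ^ 2 / m * (∫ t in (0 : ℝ)..1, F t ^ m) -
          ((m : ℝ) + 2) / F 0 * ∫ t in (0 : ℝ)..1, F t ^ (m + 1)) := by
    rw [← hsplit, show ((m : ℝ) + 2) / F 0 = u * ((m : ℝ) + 2) by rw [hu]; ring]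
    linarith
  have h7 := mul_le_mul_of_nonneg_left key (le_of_lt this)
  field_simp at h7 ⊢
  linarith

/-- Removing the cut-off. -/
lemma bound_scale (h : Shape F D) (hm : 1 ≤ m) (hT : Tests m F) {σ : ℝ} (hσ : 0 < σ) :
    2 * σ * (((m : ℝ) + 1) * ∫ s in (0 : ℝ)..F 0, s ^ (m - 1) * √(s - s ^ 2 / F 0)) ≤
      σ ^ 2 * (∫ t in (0 : ℝ)..1, F t ^ (m + 1)) +
        (((m : ℝ) + 1) ^ 2 / m * (∫ t in (0 : ℝ)..1, F t ^ m) -
          ((m : ℝ) + 2) / F 0 * ∫ t in (0 : ℝ)..1, F t ^ (m + 1)) := by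
  have hF0 : 0 < F 0 := h.pos 0 ⟨le_rfl, zero_lt_one⟩
  obtain ⟨i, rfl⟩ : ∃ i, m = i + 1 := ⟨m - 1, by omega⟩
  simp only [Nat.add_sub_cancel]
  set δ : ℕ → ℝ := fun k => 1 / ((k : ℝ) + 1) with hδ
  have hδpos : ∀ k, 0 < δ k := fun k => by simp only [hδ]; positivity
  have hlim : Tendsto (fun k => ∫ s in (0 : ℝ)..F 0,
      (((i + 1 : ℕ) : ℝ) + 1) * s ^ (i + 1) * w (δ k) (1 / F 0) s) atTop
      (𝓝 (∫ s in (0 : ℝ)..F 0, (((i + 1 : ℕ) : ℝ) + 1) * (s ^ i * √(s - s ^ 2 / F 0)))) := by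
    refine intervalIntegral.tendsto_integral_filter_of_dominated_convergence
      (fun s => (((i + 1 : ℕ) : ℝ) + 1) * (s ^ i * √s))
      (Eventually.of_forall fun k => ?_) (Eventually.of_forall fun k => ?_) ?_ ?_
    · exact (((continuous_const.mul (continuous_pow _)).mul
        (w_continuous (hδpos k) _))).aestronglyMeasurable
    · refine Eventually.of_forall fun s hs => ?_
      rw [uIoc_of_le hF0.le] at hs
      have h0 : 0 ≤ w (δ k) (1 / F 0) s := Real.sqrt_nonneg _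
      have := hs.1
      rw [Real.norm_eq_abs, abs_of_nonneg (by positivity), mul_assoc, pow_succ, mul_assoc]
      refine mul_le_mul_of_nonneg_left (mul_le_mul_of_nonneg_left ?_ (by positivity)) (by positivity)
      refine Real.le_sqrt_of_sq_le ?_
      have h1 := w_sq_le (δ := δ k) hs.1 (one_div_le_one_div_of_le hs.1 hs.2)
      calc (s * w (δ k) (1 / F 0) s) ^ 2 = s ^ 2 * w (δ k) (1 / F 0) s ^ 2 := by ring
        _ ≤ s ^ 2 * (1 / s - 1 / F 0) := by gcongr
        _ = s - s ^ 2 / F 0 := by field_simp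
        _ ≤ s := sub_le_self _ (by positivity)
    · exact (by fun_prop : Continuous fun s : ℝ =>
        (((i + 1 : ℕ) : ℝ) + 1) * (s ^ i * √s)).intervalIntegrable _ _
    · refine Eventually.of_forall fun s hs => ?_
      rw [uIoc_of_le hF0.le] at hs
      have hev : ∀ᶠ k in atTop, δ k < s :=
        tendsto_one_div_add_atTop_nhds_zero_nat.eventually_lt_const hs.1
      refine Tendsto.congr' ?_ tendsto_const_nhds
      filter_upwards [hev] with k hk
      have hge := one_div_le_one_div_of_le hs.1 hs.2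
      rw [w, max_eq_left hk.le, max_eq_right (by linarith)]
      have e : s * √(1 / s - 1 / F 0) = √(s - s ^ 2 / F 0) := by
        nth_rewrite 1 [← Real.sqrt_sq hs.1.le]
        rw [← Real.sqrt_mul (sq_nonneg s)]
        congr 1
        field_simp [hs.1.ne']
      rw [← e]
      ring
  rw [← intervalIntegral.integral_const_mul]
  exact le_of_tendsto' (hlim.const_mul _) fun k => bound_cut h hm hT (hδpos k) hσ

/-- `∫₀¹ x^{j} √(x - x²) = S_{2j+2} / (2j+4)`. -/
lemma beta_int (j : ℕ) :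
    ∫ x in (0 : ℝ)..1, x ^ j * √(x - x ^ 2) = S (2 * j + 2) / (2 * (j : ℝ) + 4) := by
  have h1 : ∫ x in (0 : ℝ)..1, x ^ j * √(x - x ^ 2) =
      ∫ θ in (0 : ℝ)..π / 2, ((fun x : ℝ => x ^ j * √(x - x ^ 2)) ∘ fun θ => sin θ ^ 2) θ *
        (2 * sin θ * cos θ) := by
    rw [integral_comp_mul_deriv (f := fun θ => sin θ ^ 2) (f' := fun θ => 2 * sin θ * cos θ)
      (g := fun x : ℝ => x ^ j * √(x - x ^ 2))
      (fun θ _ => ((hasDerivAt_sin θ).pow 2).congr_deriv (by simp))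
      (by fun_prop) (by fun_prop)]
    simp
  have h2 : ∀ k : ℕ, S k = 2 * ∫ θ in (0 : ℝ)..π / 2, sin θ ^ k := by
    intro k
    have hc : ∀ a b : ℝ, IntervalIntegrable (fun θ => sin θ ^ k) volume a b :=
      fun a b => (by fun_prop : Continuous fun θ => sin θ ^ k).intervalIntegrable _ _
    have h3 := intervalIntegral.integral_comp_sub_left (fun θ => sin θ ^ k) π (a := 0) (b := π / 2)
    simp only [sin_pi_sub, sub_zero, show π - π / 2 = π / 2 by ring] at h3
    rw [S, ← intervalIntegral.integral_add_adjacent_intervals (hc 0 (π / 2)) (hc (π / 2) π), ← h3]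
    ring
  have h4 : ∫ θ in (0 : ℝ)..π / 2, ((fun x : ℝ => x ^ j * √(x - x ^ 2)) ∘ fun θ => sin θ ^ 2) θ *
        (2 * sin θ * cos θ) =
      ∫ θ in (0 : ℝ)..π / 2, (2 * sin θ ^ (2 * j + 2) - 2 * sin θ ^ (2 * j + 4)) := by
    refine integral_congr fun θ hθ => ?_
    rw [uIcc_of_le (by positivity)] at hθ
    have hs : 0 ≤ sin θ := sin_nonneg_of_nonneg_of_le_pi hθ.1 (by linarith [hθ.2, pi_pos])
    have hc : 0 ≤ cos θ := cos_nonneg_of_mem_Icc ⟨by linarith [hθ.1, pi_pos], hθ.2⟩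
    have e : sin θ ^ 2 - (sin θ ^ 2) ^ 2 = (sin θ * cos θ) ^ 2 := by
      rw [mul_pow, cos_sq']; ring
    simp only [Function.comp, e, Real.sqrt_sq (mul_nonneg hs hc)]
    have e2 : cos θ * cos θ = 1 - sin θ ^ 2 := by rw [← sq, cos_sq']
    linear_combination (2 * (sin θ ^ 2) ^ j * sin θ ^ 2) * e2
  have hrec : S (2 * j + 4) = (2 * (j : ℝ) + 3) / (2 * (j : ℝ) + 4) * S (2 * j + 2) := by
    rw [show 2 * j + 4 = 2 * j + 2 + 2 by ring, S_succ_succ]
    push_cast
    ring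
  rw [h1, h4, intervalIntegral.integral_sub (Continuous.intervalIntegrable (by fun_prop) _ _)
    (Continuous.intervalIntegrable (by fun_prop) _ _), intervalIntegral.integral_const_mul,
    intervalIntegral.integral_const_mul, ← h2, ← h2, hrec]
  field_simp
  ring

/-- The squared test bound. -/
lemma bound_sq (h : Shape F D) (hm : 1 ≤ m) (hT : Tests m F) :
    (S (2 * m) / 2) ^ 2 * F 0 ^ (2 * m + 1) ≤
      (∫ t in (0 : ℝ)..1, F t ^ (m + 1)) *
        (((m : ℝ) + 1) ^ 2 / m * (∫ t in (0 : ℝ)..1, F t ^ m) -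
          ((m : ℝ) + 2) / F 0 * ∫ t in (0 : ℝ)..1, F t ^ (m + 1)) := by
  have hF0 : 0 < F 0 := h.pos 0 ⟨le_rfl, zero_lt_one⟩
  obtain ⟨i, rfl⟩ : ∃ i, m = i + 1 := ⟨m - 1, by omega⟩
  set G := ∫ t in (0 : ℝ)..1, F t ^ (i + 1 + 1) with hG
  have hGpos : 0 < G := intervalIntegral_pos_of_pos_on (Shape.intC (h.cont.pow _))
    (fun t ht => pow_pos (h.pos t ⟨ht.1.le, ht.2⟩) _) zero_lt_one
  have hphi : (((i + 1 : ℕ) : ℝ) + 1) * ∫ s in (0 : ℝ)..F 0, s ^ i * √(s - s ^ 2 / F 0) =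
      S (2 * (i + 1)) / 2 * (F 0 ^ (i + 1) * √(F 0)) := by
    have hsc := intervalIntegral.mul_integral_comp_mul_left (a := (0 : ℝ)) (b := 1)
      (f := fun s => s ^ i * √(s - s ^ 2 / F 0)) (F 0)
    rw [mul_zero, mul_one] at hsc
    have e : ∀ x : ℝ, (F 0 * x) ^ i * √(F 0 * x - (F 0 * x) ^ 2 / F 0) =
        F 0 ^ i * √(F 0) * (x ^ i * √(x - x ^ 2)) := fun x => by
      rw [show F 0 * x - (F 0 * x) ^ 2 / F 0 = F 0 * (x - x ^ 2) by field_simp,
        Real.sqrt_mul hF0.le, mul_pow]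
      ring
    simp only [e] at hsc
    rw [← hsc, intervalIntegral.integral_const_mul, beta_int,
      show 2 * (i + 1) = 2 * i + 2 by ring]
    push_cast
    field_simp
    ring
  have hY : 0 < S (2 * (i + 1)) / 2 * (F 0 ^ (i + 1) * √(F 0)) := by
    have := S_pos (2 * (i + 1)); positivity
  have h1 := bound_scale h hm hT (σ := S (2 * (i + 1)) / 2 * (F 0 ^ (i + 1) * √(F 0)) / G)
    (by positivity)
  simp only [Nat.add_sub_cancel] at h1
  rw [hphi, ← hG] at h1
  have e2 : (S (2 * (i + 1)) / 2) ^ 2 * F 0 ^ (2 * (i + 1) + 1) =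
      (S (2 * (i + 1)) / 2 * (F 0 ^ (i + 1) * √(F 0))) ^ 2 := by
    rw [mul_pow, mul_pow (F 0 ^ (i + 1)), Real.sq_sqrt hF0.le, ← pow_mul, ← pow_succ,
      show (i + 1) * 2 = 2 * (i + 1) by ring]
  rw [e2]
  generalize S (2 * (i + 1)) / 2 * (F 0 ^ (i + 1) * √(F 0)) = Y at h1 ⊢
  field_simp at h1 ⊢
  linarith

/-- The loss of the test-function bound, squared. -/
noncomputable def loss (m : ℕ) : ℝ :=
  (2 * (m : ℝ) / ((m : ℝ) + 1)) ^ (2 * m + 2) *
    (((m : ℝ) + 2) / (2 * (m : ℝ) + 1)) ^ (2 * m + 1) * S (2 * m) ^ 2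

/-- The inequality between the two integrals. -/
theorem shape_bound (h : Shape F D) (hm : 1 ≤ m) (hT : Tests m F) :
    loss m * ((2 * ∫ t in (0 : ℝ)..1, F t ^ (m + 1)) ^ m) ^ 2 ≤
      ((2 * ∫ t in (0 : ℝ)..1, F t ^ m) ^ (m + 1)) ^ 2 := by
  have hF0 : 0 < F 0 := h.pos 0 ⟨le_rfl, zero_lt_one⟩
  have hm0 : (0 : ℝ) < m := by exact_mod_cast hm
  have h1 := bound_sq h hm hT
  set G := ∫ t in (0 : ℝ)..1, F t ^ (m + 1) with hG
  set P := ∫ t in (0 : ℝ)..1, F t ^ m with hP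
  have hGpos : 0 < G := intervalIntegral_pos_of_pos_on (Shape.intC (h.cont.pow _))
    (fun t ht => pow_pos (h.pos t ⟨ht.1.le, ht.2⟩) _) zero_lt_one
  set a := ((m : ℝ) + 2) * G / (F 0 * (2 * (m : ℝ) + 1)) with ha
  set b := (S (2 * m) / 2) ^ 2 * F 0 ^ (2 * m + 1) / G with hb
  have hS := S_pos (2 * m)
  have ha0 : 0 < a := by rw [ha]; positivity
  have hb0 : 0 < b := by rw [hb]; positivity
  have hN : (2 * (m : ℝ) + 1) * a + b ≤ ((m : ℝ) + 1) ^ 2 / m * P := by
    have e : (2 * (m : ℝ) + 1) * a = ((m : ℝ) + 2) / F 0 * G := by rw [ha]; field_simp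
    have : b ≤ ((m : ℝ) + 1) ^ 2 / m * P - ((m : ℝ) + 2) / F 0 * G := by
      rw [hb, div_le_iff₀ hGpos]; linarith
    linarith
  have ham := one_add_mul_le_pow (a := (b / a - 1) / (2 * (m : ℝ) + 2)) (by
    rw [le_div_iff₀ (by positivity)]
    have : 0 < b / a := by positivity
    nlinarith) (2 * m + 2)
  have h2 : a ^ (2 * m + 1) * b ≤ (((2 * (m : ℝ) + 1) * a + b) / (2 * (m : ℝ) + 2)) ^ (2 * m + 2) := by
    have h3 := mul_le_mul_of_nonneg_left ham (pow_nonneg ha0.le (2 * m + 2))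
    rw [← mul_pow, show a * (1 + (b / a - 1) / (2 * (m : ℝ) + 2)) =
      ((2 * (m : ℝ) + 1) * a + b) / (2 * (m : ℝ) + 2) by field_simp; ring] at h3
    refine le_trans (le_of_eq ?_) h3
    push_cast
    field_simp
    ring
  have hP0 : 0 ≤ P := intervalIntegral.integral_nonneg zero_le_one
    fun t ht => pow_nonneg (h.nonneg ht) _
  have h4 : a ^ (2 * m + 1) * b ≤ (((m : ℝ) + 1) / (2 * (m : ℝ)) * P) ^ (2 * m + 2) := by
    refine h2.trans (pow_le_pow_left₀ (by positivity) ?_ _)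
    rw [div_le_iff₀ (by positivity)]
    refine hN.trans (le_of_eq ?_)
    field_simp
  have e : a ^ (2 * m + 1) * b =
      (((m : ℝ) + 2) / (2 * (m : ℝ) + 1)) ^ (2 * m + 1) * G ^ (2 * m) * (S (2 * m) / 2) ^ 2 := by
    rw [hb, show a = ((m : ℝ) + 2) / (2 * (m : ℝ) + 1) * G / F 0 by rw [ha]; field_simp]
    rw [div_pow _ (F 0), mul_pow, pow_succ G (2 * m)]
    field_simp
  rw [e, mul_pow (((m : ℝ) + 1) / (2 * m))] at h4
  have h5 := mul_le_mul_of_nonneg_left h4
    (show (0 : ℝ) ≤ (2 * (m : ℝ) / ((m : ℝ) + 1)) ^ (2 * m + 2) * 2 ^ (2 * m + 2) by positivity)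
  have e3 : (2 * (m : ℝ) / ((m : ℝ) + 1)) ^ (2 * m + 2) *
      ((((m : ℝ) + 1) / (2 * m)) ^ (2 * m + 2)) = 1 := by
    rw [← mul_pow]; field_simp; simp
  calc loss m * ((2 * G) ^ m) ^ 2
      = (2 * (m : ℝ) / ((m : ℝ) + 1)) ^ (2 * m + 2) * 2 ^ (2 * m + 2) *
        ((((m : ℝ) + 2) / (2 * (m : ℝ) + 1)) ^ (2 * m + 1) * G ^ (2 * m) * (S (2 * m) / 2) ^ 2) := by
        rw [loss, ← pow_mul, mul_pow, pow_add (2 : ℝ) (2 * m) 2, mul_comm m 2]; ring
    _ ≤ _ := h5
    _ = (2 * (m : ℝ) / ((m : ℝ) + 1)) ^ (2 * m + 2) * (((m : ℝ) + 1) / (2 * m)) ^ (2 * m + 2) *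
        (2 * P) ^ (2 * m + 2) := by rw [mul_pow 2 P]; ring
    _ = _ := by rw [e3, one_mul, ← pow_mul]; congr 1; ring

/-- `∫_{-1}^1 √(1 - t²)^k = S_{k+1}`. -/
lemma semi_int (k : ℕ) : ∫ t in Icc (-1 : ℝ) 1, √(1 - t ^ 2) ^ k = S (k + 1) := by
  have h1 : ∫ θ in (0 : ℝ)..π, ((fun t : ℝ => √(1 - t ^ 2) ^ k) ∘ fun θ => -cos θ) θ * sin θ =
      ∫ t in (-cos 0)..(-cos π), √(1 - t ^ 2) ^ k :=
    integral_comp_mul_deriv (f := fun θ => -cos θ) (f' := sin) (g := fun t : ℝ => √(1 - t ^ 2) ^ k)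
      (fun θ _ => by simpa using! (hasDerivAt_cos θ).neg) continuous_sin.continuousOn (by fun_prop)
  rw [cos_zero, cos_pi, neg_neg, intervalIntegral.integral_of_le (show (-1 : ℝ) ≤ 1 by norm_num)] at h1
  rw [integral_Icc_eq_integral_Ioc, ← h1, S]
  refine integral_congr fun θ hθ => ?_
  rw [uIcc_of_le pi_pos.le] at hθ
  rw [Function.comp, neg_sq, ← sin_sq, Real.sqrt_sq (sin_nonneg_of_mem_Icc hθ), pow_succ]

/-- The profile lemma, given the shape of the profile and the value of the loss. -/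
theorem profile_of_shape {f : ℝ → ℝ} (h : Shape F D) (hm : 1 ≤ m) (hT : Tests m F)
    (hfF : ∀ k : ℕ, ∫ t in Icc (-1 : ℝ) 1, f t ^ k = 2 * ∫ t in (0 : ℝ)..1, F t ^ k)
    {r : ℝ} (hr : 0 ≤ r) (hloss : r ^ 2 * (S (m + 1) ^ (m + 1) / S (m + 2) ^ m) ^ 2 ≤ loss m) :
    r * Full.profileConst m * (∫ t in Icc (-1 : ℝ) 1, f t ^ (m + 1)) ^ m ≤
      (∫ t in Icc (-1 : ℝ) 1, f t ^ m) ^ (m + 1) := by
  rw [hfF, hfF, Full.profileConst, semi_int, semi_int]
  have := S_pos (m + 1)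
  have := S_pos (m + 1 + 1)
  have hG : 0 ≤ ∫ t in (0 : ℝ)..1, F t ^ (m + 1) := intervalIntegral.integral_nonneg zero_le_one
    fun t ht => pow_nonneg (h.nonneg ht) _
  have hP : 0 ≤ ∫ t in (0 : ℝ)..1, F t ^ m := intervalIntegral.integral_nonneg zero_le_one
    fun t ht => pow_nonneg (h.nonneg ht) _
  refine (pow_le_pow_iff_left₀ (by positivity) (by positivity) two_ne_zero).1 ?_
  rw [mul_pow, mul_pow]
  refine le_trans ?_ (shape_bound h hm hT)
  exact mul_le_mul_of_nonneg_right hloss (by positivity)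

end Vale.Agent.P237.Uniform
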